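import Mathlib

/-! Codes with good squares, part 1: the tower inside Laurent series. -/

namespace Vale.Agent.P318.AG

open PowerSeries WithZero

variable {k : Type*} [Field k]

/-- Artin–Schreier root of a power series without constant term. -/
theorem exists_AS_root (q : ℕ) (hq : 2 ≤ q) (hq2 : (q : k) = 0) (c : k⟦X⟧)
    (hc : constantCoeff c = 0) :
    ∃ w : k⟦X⟧, w ^ q + w = c ∧ constantCoeff w = 0 := by
  let I : Ideal k⟦X⟧ := Ideal.span {X}
  have hH : HenselianRing k⟦X⟧ I := inferInstance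
  let f : Polynomial k⟦X⟧ := Polynomial.X ^ q + (Polynomial.X - Polynomial.C c)
  have hf : f.Monic := by
    apply Polynomial.monic_X_pow_add
    calc (Polynomial.X - Polynomial.C c).degree = 1 := Polynomial.degree_X_sub_C c
      _ < (q : WithBot ℕ) := by exact_mod_cast hq
  have h0 : f.eval 0 ∈ I := by
    have : f.eval 0 = -c := by
      simp [f]
      omega
    rw [this]
    apply I.neg_mem
    rw [Ideal.mem_span_singleton]
    exact PowerSeries.X_dvd_iff.mpr hc
  have hq2' : ((q : ℕ) : k⟦X⟧) = 0 := by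
    have : ((q : ℕ) : k⟦X⟧) = C (q : k) := by simp
    rw [this, hq2]; simp
  have h1 : f.derivative.eval 0 = 1 := by
    simp [f, Polynomial.derivative_X_pow, hq2']
  have h2 : IsUnit (Ideal.Quotient.mk I (f.derivative.eval 0)) := by
    rw [h1]; simp
  obtain ⟨a, ha, haI⟩ := hH.is_henselian f hf 0 h0 h2
  refine ⟨a, ?_, ?_⟩
  · have := ha
    simp only [Polynomial.IsRoot, f, Polynomial.eval_add, Polynomial.eval_pow,
      Polynomial.eval_X, Polynomial.eval_sub, Polynomial.eval_C] at this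
    linear_combination this
  · rw [sub_zero, Ideal.mem_span_singleton] at haI
    exact PowerSeries.X_dvd_iff.mp haI

/-- One step of the tower, in power series. -/
theorem exists_step (q : ℕ) (hq : 2 ≤ q) (hq2 : (q : k) = 0) (s : k⟦X⟧)
    (hs : constantCoeff s = 0) :
    ∃ s' : k⟦X⟧, (s' ^ q + s') * (1 + s ^ (q - 1)) = s ^ q ∧ constantCoeff s' = 0 := by
  have h1 : constantCoeff (1 + s ^ (q - 1)) ≠ 0 := by
    rw [map_add, map_pow, hs, zero_pow (by omega)]
    simp
  obtain ⟨w, hw, hw0⟩ := exists_AS_root q hq hq2 (s ^ q * (1 + s ^ (q - 1))⁻¹) (by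
    rw [map_mul, map_pow, hs, zero_pow (by omega), zero_mul])
  refine ⟨w, ?_, hw0⟩
  rw [hw, mul_assoc, PowerSeries.inv_mul_cancel _ h1, mul_one]

/-- The chain of power series. -/
theorem exists_chain (q : ℕ) (hq : 2 ≤ q) (hq2 : (q : k) = 0) :
    ∃ s : ℕ → k⟦X⟧, s 0 = X ∧ (∀ j, constantCoeff (s j) = 0) ∧
      ∀ j, (s (j + 1) ^ q + s (j + 1)) * (1 + s j ^ (q - 1)) = s j ^ q := by
  classical
  choose f hf using fun s : {s : k⟦X⟧ // constantCoeff s = 0} =>
    exists_step q hq hq2 s.1 s.2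
  let F : {s : k⟦X⟧ // constantCoeff s = 0} → {s : k⟦X⟧ // constantCoeff s = 0} :=
    fun s => ⟨f s, (hf s).2⟩
  let T : ℕ → {s : k⟦X⟧ // constantCoeff s = 0} :=
    fun n => Nat.rec ⟨X, by simp⟩ (fun _ s => F s) n
  refine ⟨fun n => (T n).1, rfl, fun j => (T j).2, fun j => ?_⟩
  exact (hf (T j)).1

/-- The valuation of Laurent series (pole orders are `exp n`). -/
noncomputable abbrev vInf (k : Type*) [Field k] : Valuation (LaurentSeries k) ℤᵐ⁰ := Valued.v

theorem vInf_lt_one {s : k⟦X⟧} (hs : constantCoeff s = 0) :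
    vInf k (s : LaurentSeries k) < 1 := by
  have h : vInf k (s : LaurentSeries k) ≤ exp (-((1 : ℕ) : ℤ)) := by
    rw [vInf, LaurentSeries.intValuation_le_iff_coeff_lt_eq_zero]
    intro n hn
    have : n = 0 := by omega
    subst this
    simpa using hs
  refine lt_of_le_of_lt h ?_
  rw [← exp_zero, exp_lt_exp]
  norm_num

/-- The tower in the field of Laurent series: `x i` has pole order `q ^ (m - 1 - i)`. -/
theorem exists_tower (q m : ℕ) (hq : 2 ≤ q) (hq2 : (q : k) = 0) :
    ∃ x : ℕ → LaurentSeries k,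
      (∀ i < m, vInf k (x i) = exp ((q : ℤ) ^ (m - 1 - i))) ∧
      ∀ i, i + 1 < m → (x (i + 1) ^ q + x (i + 1)) * (x i ^ (q - 1) + 1) = x i ^ q := by
  obtain ⟨s, hs0, hsc, hs⟩ := exists_chain (k := k) q hq hq2
  let σ : ℕ → LaurentSeries k := fun j => ((s j : k⟦X⟧) : LaurentSeries k)
  have hσrel : ∀ j, (σ (j + 1) ^ q + σ (j + 1)) * (1 + σ j ^ (q - 1)) = σ j ^ q := by
    intro j
    have := congrArg (HahnSeries.ofPowerSeries ℤ k) (hs j)
    simpa only [map_mul, map_add, map_pow, map_one] using this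
  have hσlt : ∀ j, vInf k (σ j) < 1 := fun j => vInf_lt_one (hsc j)
  have hone : ∀ j, vInf k (1 + σ j ^ (q - 1)) = 1 := by
    intro j
    apply Valuation.map_one_add_of_lt
    rw [map_pow]
    exact pow_lt_one₀ zero_le (hσlt j) (by omega)
  have hσv : ∀ j, vInf k (σ j) = exp (-((q : ℤ) ^ j)) := by
    intro j
    induction j with
    | zero =>
      have := LaurentSeries.valuation_X_pow k 1
      simp only [pow_one, pow_zero] at this ⊢
      rw [show σ 0 = ((X : k⟦X⟧) : LaurentSeries k) by simp only [σ, hs0]]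
      simpa using this
    | succ j ih =>
      have h1 := congrArg (vInf k) (hσrel j)
      rw [map_mul, hone, mul_one, map_pow, ih] at h1
      have h2 : σ (j + 1) ^ q + σ (j + 1) = σ (j + 1) * (1 + σ (j + 1) ^ (q - 1)) := by
        have : σ (j + 1) ^ q = σ (j + 1) * σ (j + 1) ^ (q - 1) := by
          rw [← pow_succ']; congr 1; omega
        rw [this]; ring
      rw [h2, map_mul, hone, mul_one] at h1
      rw [h1, ← exp_nsmul]
      congr 1
      simp [pow_succ]
      ring
  have hσne : ∀ j, σ j ≠ 0 := by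
    intro j h
    have := hσv j
    rw [h, map_zero] at this
    exact exp_ne_zero this.symm
  refine ⟨fun i => (σ (m - 1 - i))⁻¹, ?_, ?_⟩
  · intro i hi
    rw [map_inv₀, hσv, exp_neg, inv_inv]
  · intro i hi
    obtain ⟨j, hj⟩ : ∃ j, m - 1 - (i + 1) = j := ⟨_, rfl⟩
    have hj' : m - 1 - i = j + 1 := by omega
    simp only [hj, hj']
    have h := hσrel j
    have e1 : σ (j + 1) ^ q = σ (j + 1) * σ (j + 1) ^ (q - 1) := by
      rw [← pow_succ']; congr 1; omega
    have e2 : σ j ^ q = σ j * σ j ^ (q - 1) := by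
      rw [← pow_succ']; congr 1; omega
    have n1 := hσne (j + 1)
    have n2 := hσne j
    have n3 : σ (j + 1) ^ (q - 1) ≠ 0 := pow_ne_zero _ n1
    have n4 : σ j ^ (q - 1) ≠ 0 := pow_ne_zero _ n2
    rw [inv_pow, inv_pow, inv_pow, e1, e2]
    rw [e1, e2] at h
    generalize σ (j + 1) ^ (q - 1) = A at *
    generalize σ j ^ (q - 1) = B at *
    field_simp
    linear_combination h

end Vale.Agent.P318.AG
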