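import Vale.Agent.P318.AG.Val

/-! Codes with good squares, part 2b: the local basis at `x 0 = 0`. -/

set_option linter.unusedSectionVars false
set_option linter.unusedVariables false

namespace Vale.Agent.P318.AG

variable {L : Type*} [Field L] [CharP L 2]
variable {Γ : Type*} [LinearOrderedCommGroupWithZero Γ]
variable {q m : ℕ} {x : ℕ → L} (w : Valuation L Γ)

/-- Approximate indicator of `z = 0`. -/
noncomputable def rho (q M : ℕ) (z : L) : L :=
  (z ^ (q - 1) + 1) ^ 2 / ((z ^ (q - 1) + 1) ^ 2 + z ^ (2 * (q - 1) + M))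

theorem rho_small (hq : 2 ≤ q) (M : ℕ) {z : L} (hz : w z < 1) :
    w (rho q M z) ≤ 1 ∧ w (rho q M z + 1) ≤ w z := by
  have h1 : w (z ^ (q - 1) + 1) = 1 := w_pow_add_one_of_lt w hq hz
  have h2 : w (z ^ (2 * (q - 1) + M)) < 1 := by
    rw [map_pow]; exact pow_lt_one₀ zero_le hz (by omega)
  have h3 : w ((z ^ (q - 1) + 1) ^ 2 + z ^ (2 * (q - 1) + M)) = 1 := by
    rw [Valuation.map_add_eq_of_lt_left, map_pow, h1, one_pow]
    rw [map_pow w (z ^ (q - 1) + 1) 2, h1, one_pow]; exact h2
  have h4 : (z ^ (q - 1) + 1) ^ 2 + z ^ (2 * (q - 1) + M) ≠ 0 := by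
    intro h; rw [h, map_zero] at h3; exact zero_ne_one h3
  constructor
  · rw [rho, map_div₀, h3, map_pow, h1]; simp
  · have h5 : rho q M z + 1 =
        z ^ (2 * (q - 1) + M) / ((z ^ (q - 1) + 1) ^ 2 + z ^ (2 * (q - 1) + M)) := by
      rw [rho]
      rw [eq_div_iff h4, add_mul, div_mul_cancel₀ _ h4]
      have : (2 : L) = 0 := CharTwo.two_eq_zero
      linear_combination (z ^ (q - 1) + 1) ^ 2 * this
    rw [h5, map_div₀, h3, div_one, map_pow]
    calc w z ^ (2 * (q - 1) + M) ≤ w z ^ 1 :=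
          pow_le_pow_right_of_le_one' hz.le (by omega)
      _ = w z := pow_one _

theorem rho_close (hq : 2 ≤ q) (M : ℕ) {z : L} (hz : w z = 1) (hz' : w (z ^ (q - 1) + 1) < 1) :
    w (rho q M z) = w (z ^ (q - 1) + 1) ^ 2 := by
  have h3 : w ((z ^ (q - 1) + 1) ^ 2 + z ^ (2 * (q - 1) + M)) = 1 := by
    rw [Valuation.map_add_eq_of_lt_right, map_pow, hz, one_pow]
    rw [map_pow, map_pow, hz, one_pow]
    exact pow_lt_one₀ zero_le hz' (by omega)
  rw [rho, map_div₀, h3, div_one, map_pow]

theorem rho_big (hq : 2 ≤ q) (M : ℕ) (hM : 1 ≤ M) {z : L} (hz : 1 < w z) :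
    w (rho q M z) = (w z ^ M)⁻¹ := by
  have h1 : w (z ^ (q - 1) + 1) = w z ^ (q - 1) := w_pow_add_one_of_gt w hq hz
  have h0 : w z ≠ 0 := (lt_trans zero_lt_one hz).ne'
  have h2 : w ((z ^ (q - 1) + 1) ^ 2) = w z ^ (2 * (q - 1)) := by
    rw [map_pow, h1, ← pow_mul]; congr 1; ring
  have h3 : w ((z ^ (q - 1) + 1) ^ 2 + z ^ (2 * (q - 1) + M)) = w z ^ (2 * (q - 1) + M) := by
    rw [Valuation.map_add_eq_of_lt_right, map_pow]
    rw [h2, map_pow]
    exact pow_lt_pow_right₀ hz (by omega)
  rw [rho, map_div₀, h3, h2, pow_add]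
  field_simp

/-- The correction terms. -/
noncomputable def term (q M : ℕ) (x : ℕ → L) (s l : ℕ) : L :=
  rho q M (x (s - 1)) * x s ^ 2 * (x (2 * s - l))⁻¹

/-- The local coordinate. -/
noncomputable def yy (q M : ℕ) (x : ℕ → L) (l : ℕ) : L :=
  x l + ∑ s ∈ (Finset.range l).filter (fun s => l ≤ 2 * s), term q M x s l

theorem term_small (hq : 2 ≤ q) (M : ℕ) (hr : Rel q m x) (hn : Ndg q m x) {s l : ℕ}
    (hs : s < l) (hsl : l ≤ 2 * s) (hsm : s < m) (h : ∀ i ≤ s, w (x i) < 1) :
    w (term q M x s l) ≤ 1 := by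
  have h1 : w (rho q M (x (s - 1))) ≤ 1 := (rho_small w hq M (h _ (by omega))).1
  have hanti : ∀ r i, i + r ≤ s → w (x (i + r)) ≤ w (x i) := by
    intro r
    induction r with
    | zero => intro i _; simp
    | succ r ih =>
      intro i hi
      have h1 := w_lt_step w hq hr (i := i + r) (by omega) (h _ (by omega)) (h _ (by omega))
      rw [← add_assoc, h1]
      refine le_trans ?_ (ih i (by omega))
      calc w (x (i + r)) ^ q ≤ w (x (i + r)) ^ 1 :=
            pow_le_pow_right_of_le_one' (h _ (by omega)).le (by omega)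
        _ = _ := pow_one _
  have h2 := hanti (s - (2 * s - l)) (2 * s - l) (by omega)
  rw [show 2 * s - l + (s - (2 * s - l)) = s by omega] at h2
  obtain ⟨n1, _⟩ := hn (2 * s - l) (by omega)
  have n1' : w (x (2 * s - l)) ≠ 0 := by simpa using n1
  rw [term, map_mul, map_mul, map_pow, map_inv₀]
  calc w (rho q M (x (s - 1))) * w (x s) ^ 2 * (w (x (2 * s - l)))⁻¹
      ≤ 1 * (1 * w (x (2 * s - l))) * (w (x (2 * s - l)))⁻¹ := by
        apply mul_le_mul' _ le_rfl
        apply mul_le_mul' h1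
        rw [pow_two]
        exact mul_le_mul' (h s le_rfl).le h2
    _ = 1 := by rw [one_mul, one_mul, mul_inv_cancel₀ n1']

variable {p : ℕ} {ω : L}

theorem Path.term_eq (P : Path q m x w p ω) (hq : 2 ≤ q) (ha : AddPow L q) (M : ℕ)
    (hr : Rel q m x) (hn : Ndg q m x) {l : ℕ} (hl : p < l) (hl2 : l ≤ 2 * p) :
    w (term q M x p l + ω ^ 2 * (x (2 * p - l))⁻¹) ≤ 1 := by
  have hlt := P.lt
  have h1 := (rho_small w hq M (P.small (p - 1) (by omega))).2
  have h2 := P.w_anti w hq hr (2 * p - l) (p - 1 - (2 * p - l)) (by omega)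
  rw [show 2 * p - l + (p - 1 - (2 * p - l)) = p - 1 by omega] at h2
  obtain ⟨n1, _⟩ := hn (2 * p - l) (by omega)
  have n1' : w (x (2 * p - l)) ≠ 0 := by simpa using n1
  have e1 : term q M x p l + ω ^ 2 * (x (2 * p - l))⁻¹ =
      ((rho q M (x (p - 1)) + 1) * x p ^ 2 + (x p + ω) ^ 2) * (x (2 * p - l))⁻¹ := by
    rw [term]
    have : (2 : L) = 0 := CharTwo.two_eq_zero
    linear_combination (-(x p) ^ 2 - x p * ω) * (x (2 * p - l))⁻¹ * this
  rw [e1, map_mul, map_inv₀]
  have h3 : w ((rho q M (x (p - 1)) + 1) * x p ^ 2 + (x p + ω) ^ 2) ≤ w (x (p - 1)) := by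
    apply Valuation.map_add_le
    · rw [map_mul, map_pow, P.w_p w hq, one_pow, mul_one]; exact h1
    · rw [map_pow, P.w_close w hq ha hr, ← pow_mul]
      calc w (x (p - 1)) ^ (q * 2) ≤ w (x (p - 1)) ^ 1 :=
            pow_le_pow_right_of_le_one' (P.small (p - 1) (by omega)).le (by omega)
        _ = _ := pow_one _
  calc w ((rho q M (x (p - 1)) + 1) * x p ^ 2 + (x p + ω) ^ 2) * (w (x (2 * p - l)))⁻¹
      ≤ w (x (2 * p - l)) * (w (x (2 * p - l)))⁻¹ := mul_le_mul' (le_trans h3 h2) le_rfl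
    _ = 1 := mul_inv_cancel₀ n1'

theorem Path.w_inv_le (P : Path q m x w p ω) (hq : 2 ≤ q) (ha : AddPow L q)
    (hr : Rel q m x) (hn : Ndg q m x) {i : ℕ} (hi : i < m) :
    (w (x i))⁻¹ ≤ (w (x (p - 1)))⁻¹ := by
  have hlt := P.lt
  have hone := P.one_le
  obtain ⟨n1, _⟩ := hn (p - 1) (by omega)
  have n1' : w (x (p - 1)) ≠ 0 := by simpa using n1
  obtain ⟨n2, _⟩ := hn i (by omega)
  have n2' : w (x i) ≠ 0 := by simpa using n2
  apply (inv_le_inv₀ (zero_lt_iff.mpr n2') (zero_lt_iff.mpr n1')).mpr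
  rcases lt_trichotomy i p with h | h | h
  · have h2 := P.w_anti w hq hr i (p - 1 - i) (by omega)
    rwa [show i + (p - 1 - i) = p - 1 by omega] at h2
  · subst h
    rw [P.w_p w hq]
    exact (P.small _ (by omega)).le
  · exact le_trans (P.small (p - 1) (by omega)).le (P.w_big w hq ha hr hn i h hi).le

theorem Path.term_succ (P : Path q m x w p ω) (hq : 2 ≤ q) (ha : AddPow L q) (M : ℕ)
    (hr : Rel q m x) (hn : Ndg q m x) {l : ℕ} (hlm : p + 1 < m) (hl : p + 1 < l)
    (hl2 : l ≤ 2 * (p + 1)) :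
    w (term q M x (p + 1) l) ≤ 1 := by
  have hlt := P.lt
  have hone := P.one_le
  obtain ⟨n1, _⟩ := hn (p - 1) (by omega)
  have n1' : w (x (p - 1)) ≠ 0 := by simpa using n1
  have hs := P.small (p - 1) (by omega)
  have e1 : w (x p ^ (q - 1) + 1) = w (x (p - 1)) ^ q := by
    have h1 := w_next_of_lt w hq hr (i := p - 1) (by omega) hs
    rw [show p - 1 + 1 = p by omega, AS_eq hq, map_mul, P.w_p w hq, one_mul] at h1
    exact h1
  have e2 : w (rho q M (x p)) = (w (x (p - 1)) ^ q) ^ 2 := by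
    rw [rho_close w hq M (P.w_p w hq), e1]
    rw [e1]; exact pow_lt_one₀ zero_le hs (by omega)
  have e3 : w (x (p + 1)) = (w (x (p - 1)))⁻¹ := P.w_refl w hq ha hr hn 1 le_rfl hone hlm
  have e4 := P.w_inv_le w hq ha hr hn (i := 2 * (p + 1) - l) (by omega)
  rw [term, show p + 1 - 1 = p by omega, map_mul, map_mul, map_pow, map_inv₀, e2, e3]
  calc (w (x (p - 1)) ^ q) ^ 2 * (w (x (p - 1)))⁻¹ ^ 2 * (w (x (2 * (p + 1) - l)))⁻¹
      ≤ (w (x (p - 1)) ^ q) ^ 2 * (w (x (p - 1)))⁻¹ ^ 2 * (w (x (p - 1)))⁻¹ :=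
        mul_le_mul' le_rfl e4
    _ = w (x (p - 1)) ^ (q * 2 - 3) := by
        rw [mul_assoc, ← pow_succ, ← pow_mul]
        have : q * 2 = (q * 2 - 3) + 3 := by omega
        conv_lhs => rw [this]
        rw [pow_add, mul_assoc, ← mul_pow, mul_inv_cancel₀ n1', one_pow, mul_one]
    _ ≤ 1 := pow_le_one₀ zero_le hs.le

theorem Path.term_gt (P : Path q m x w p ω) (hq : 2 ≤ q) (ha : AddPow L q)
    (hr : Rel q m x) (hn : Ndg q m x) {s l : ℕ} (hsm : s < m) (hps : p + 2 ≤ s) (hs : s < l)
    (hl2 : l ≤ 2 * s) :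
    w (term q (q ^ m + 2) x s l) ≤ 1 := by
  have hlt := P.lt
  have hone := P.one_le
  have hb := P.w_big w hq ha hr hn (s - 1) (by omega) (by omega)
  have hb0 : w (x (s - 1)) ≠ 0 := (lt_trans zero_lt_one hb).ne'
  have e1 := rho_big w hq (q ^ m + 2) (by omega) hb
  have e2 : w (x s) ≤ w (x (s - 1)) := by
    have h1 := w_next_of_gt w hq hr (i := s - 1) (by omega) hb
    rw [show s - 1 + 1 = s by omega] at h1
    rw [← h1.2]
    calc w (x s) = w (x s) ^ 1 := (pow_one _).symm
      _ ≤ w (x s) ^ q := pow_le_pow_right₀ h1.1.le (by omega)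
  have e3 : (w (x (2 * s - l)))⁻¹ ≤ w (x (s - 1)) ^ (q ^ m) := by
    refine le_trans (P.w_inv_le w hq ha hr hn (i := 2 * s - l) (by omega)) ?_
    rw [← P.w_refl w hq ha hr hn 1 le_rfl hone (by omega)]
    have h1 := P.w_pow w hq ha hr hn (p + 1) (s - 1 - (p + 1)) (by omega) (by omega)
    rw [show p + 1 + (s - 1 - (p + 1)) = s - 1 by omega] at h1
    rw [← h1]
    apply pow_le_pow_right₀ hb.le
    exact Nat.pow_le_pow_right (by omega) (by omega)
  rw [term, map_mul, map_mul, map_pow, map_inv₀, e1]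
  calc (w (x (s - 1)) ^ (q ^ m + 2))⁻¹ * w (x s) ^ 2 * (w (x (2 * s - l)))⁻¹
      ≤ (w (x (s - 1)) ^ (q ^ m + 2))⁻¹ * w (x (s - 1)) ^ 2 * w (x (s - 1)) ^ (q ^ m) :=
        mul_le_mul' (mul_le_mul' le_rfl (pow_le_pow_left' e2 2)) e3
    _ = 1 := by
        rw [mul_assoc, ← pow_add, show 2 + q ^ m = q ^ m + 2 by ring]
        exact inv_mul_cancel₀ (pow_ne_zero _ hb0)

/-- all other terms are integral -/
theorem Path.term_ne (P : Path q m x w p ω) (hq : 2 ≤ q) (ha : AddPow L q)
    (hr : Rel q m x) (hn : Ndg q m x) {s l : ℕ} (hlm : l < m) (hs : s < l)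
    (hl2 : l ≤ 2 * s) (hne : s ≠ p) :
    w (term q (q ^ m + 2) x s l) ≤ 1 := by
  rcases lt_or_gt_of_ne hne with h | h
  · exact term_small w hq _ hr hn hs hl2 (by omega) (fun i hi => P.small i (by omega))
  · rcases Nat.eq_or_lt_of_le h with h' | h'
    · rw [Nat.succ_eq_add_one] at h'
      subst h'
      exact P.term_succ w hq ha _ hr hn (by omega) hs hl2
    · exact P.term_gt w hq ha hr hn (by omega) h' hs hl2

theorem yy_small (hq : 2 ≤ q) (M : ℕ) (hr : Rel q m x) (hn : Ndg q m x)
    (h : ∀ i < m, w (x i) < 1) {l : ℕ} (hl : l < m) : w (yy q M x l) ≤ 1 := by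
  rw [yy]
  apply Valuation.map_add_le
  · exact (h l hl).le
  · apply Valuation.map_sum_le
    intro s hs
    rw [Finset.mem_filter, Finset.mem_range] at hs
    exact term_small w hq M hr hn hs.1 hs.2 (by omega) (fun i hi => h i (by omega))

theorem Path.yy_le_one (P : Path q m x w p ω) (hq : 2 ≤ q) (ha : AddPow L q)
    (hr : Rel q m x) (hn : Ndg q m x) {l : ℕ} (hlm : l < m) (hl : l ≤ 2 * p) :
    w (yy q (q ^ m + 2) x l) ≤ 1 := by
  by_cases hpl : p < l
  · have hmem : p ∈ (Finset.range l).filter (fun s => l ≤ 2 * s) := by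
      rw [Finset.mem_filter, Finset.mem_range]; exact ⟨hpl, hl⟩
    have e : yy q (q ^ m + 2) x l =
        (x l + ω ^ 2 * (x (2 * p - l))⁻¹) + (term q (q ^ m + 2) x p l + ω ^ 2 * (x (2 * p - l))⁻¹) +
        ∑ s ∈ ((Finset.range l).filter (fun s => l ≤ 2 * s)).erase p,
          term q (q ^ m + 2) x s l := by
      rw [yy, ← Finset.add_sum_erase _ _ hmem]
      have : (2 : L) = 0 := CharTwo.two_eq_zero
      linear_combination (-(ω ^ 2 * (x (2 * p - l))⁻¹)) * this
    rw [e]
    apply Valuation.map_add_le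
    · apply Valuation.map_add_le
      · have := P.w_z w hq ha hr hn (l - p) (by omega) (by omega) (by omega)
        rwa [show p + (l - p) = l by omega, show p - (l - p) = 2 * p - l by omega] at this
      · exact P.term_eq w hq ha _ hr hn hpl hl
    · apply Valuation.map_sum_le
      intro s hs
      rw [Finset.mem_erase, Finset.mem_filter, Finset.mem_range] at hs
      exact P.term_ne w hq ha hr hn hlm hs.2.1 hs.2.2 hs.1
  · rw [yy]
    apply Valuation.map_add_le
    · rcases Nat.lt_or_ge l p with h | h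
      · exact (P.small l h).le
      · have : l = p := by omega
        subst this
        exact (P.w_p w hq).le
    · apply Valuation.map_sum_le
      intro s hs
      rw [Finset.mem_filter, Finset.mem_range] at hs
      exact P.term_ne w hq ha hr hn hlm hs.1 hs.2 (by omega)

theorem Path.yy_le (P : Path q m x w p ω) (hq : 2 ≤ q) (ha : AddPow L q)
    (hr : Rel q m x) (hn : Ndg q m x) {l : ℕ} (hlm : l < m) (hl : 2 * p < l) :
    w (yy q (q ^ m + 2) x l) ≤ w (x l) := by
  rw [yy]
  refine Valuation.map_add_le w le_rfl ?_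
  refine le_trans ?_ (P.w_big w hq ha hr hn l (by omega) hlm).le
  apply Valuation.map_sum_le
  intro s hs
  rw [Finset.mem_filter, Finset.mem_range] at hs
  exact P.term_ne w hq ha hr hn hlm hs.1 hs.2 (by omega)

/-- Existence of paths. -/
def HasRes (q : ℕ) (w : Valuation L Γ) : Prop :=
  ∀ z : L, w (z ^ q + z) < 1 → ∃ ω : L, ω ^ q = ω ∧ w (z + ω) < 1

theorem path_exists (hq : 2 ≤ q) (hr : Rel q m x) (hR : HasRes q w)
    (h0 : w (x 0) < 1) (hm : 1 ≤ m) :
    (∀ i < m, w (x i) < 1) ∨ ∃ p ω, Path q m x w p ω := by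
  by_cases h : ∀ i < m, w (x i) < 1
  · exact Or.inl h
  · right
    push Not at h
    classical
    let p := Nat.find h
    obtain ⟨hpm, hp1⟩ := Nat.find_spec h
    have hmin : ∀ i < p, w (x i) < 1 := by
      intro i hi
      have := Nat.find_min h hi
      push Not at this
      exact this (by have : p < m := hpm; omega)
    have hp0 : 1 ≤ p := by
      rcases Nat.eq_zero_or_pos p with h' | h'
      · exfalso
        have : 1 ≤ w (x p) := hp1
        rw [h'] at this
        exact absurd h0 (not_lt.mpr this)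
      · exact h'
    have hAS : w (x p ^ q + x p) < 1 := by
      have h1 := w_next_of_lt w hq hr (i := p - 1) (by have : p < m := hpm; omega)
        (hmin _ (by omega))
      rw [show p - 1 + 1 = p by omega] at h1
      rw [h1]
      exact pow_lt_one₀ zero_le (hmin _ (by omega)) (by omega)
    obtain ⟨ω, hω, hω1⟩ := hR _ hAS
    refine ⟨p, ω, hp0, hpm, hmin, hω, ?_, hω1⟩
    rintro rfl
    rw [add_zero] at hω1
    exact absurd hω1 (not_lt.mpr hp1)

/-- **Main local statement at `x 0 = 0`.** -/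
theorem local_zero (hq : 2 ≤ q) (ha : AddPow L q) (hr : Rel q m x) (hn : Ndg q m x)
    (hR : HasRes q w) (h0 : w (x 0) < 1) (hm : 1 ≤ m) (e : ℕ → ℕ) (he : ∀ i, e i < q) :
    w (x 0 * ∏ l ∈ Finset.Ico 1 m, yy q (q ^ m + 2) x l ^ e l) ≤ 1 := by
  rw [map_mul, map_prod]
  simp only [map_pow]
  rcases path_exists w hq hr hR h0 hm with h | ⟨p, ω, P⟩
  · calc w (x 0) * ∏ l ∈ Finset.Ico 1 m, w (yy q (q ^ m + 2) x l) ^ e l ≤ 1 * 1 := by
          apply mul_le_mul' h0.le
          apply Finset.prod_le_one'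
          intro l hl
          rw [Finset.mem_Ico] at hl
          exact pow_le_one₀ zero_le (yy_small w hq _ hr hn h hl.2)
      _ = 1 := one_mul 1
  · have hlt := P.lt
    have hone := P.one_le
    by_cases h2p : 2 * p < m
    · -- split the product
      have hsplit : ∏ l ∈ Finset.Ico 1 m, w (yy q (q ^ m + 2) x l) ^ e l =
          (∏ l ∈ Finset.Ico 1 (2 * p + 1), w (yy q (q ^ m + 2) x l) ^ e l) *
          ∏ l ∈ Finset.Ico (2 * p + 1) m, w (yy q (q ^ m + 2) x l) ^ e l :=
        (Finset.prod_Ico_consecutive _ (by omega) (by omega)).symm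
      have h1 : ∏ l ∈ Finset.Ico 1 (2 * p + 1), w (yy q (q ^ m + 2) x l) ^ e l ≤ 1 := by
        apply Finset.prod_le_one'
        intro l hl
        rw [Finset.mem_Ico] at hl
        exact pow_le_one₀ zero_le (P.yy_le_one w hq ha hr hn (by omega) (by omega))
      have h2 : ∏ l ∈ Finset.Ico (2 * p + 1) m, w (yy q (q ^ m + 2) x l) ^ e l ≤ w (x (2 * p)) := by
        rw [Finset.prod_Ico_eq_prod_range]
        calc ∏ r ∈ Finset.range (m - (2 * p + 1)),
              w (yy q (q ^ m + 2) x (2 * p + 1 + r)) ^ e (2 * p + 1 + r)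
            ≤ ∏ r ∈ Finset.range (m - (2 * p + 1)),
              (fun r => w (x (2 * p + r))) (r + 1) ^ (fun r => e (2 * p + r)) (r + 1) := by
              apply Finset.prod_le_prod'
              intro r hr'
              rw [Finset.mem_range] at hr'
              simp only
              rw [show 2 * p + (r + 1) = 2 * p + 1 + r by ring]
              exact pow_le_pow_left' (P.yy_le w hq ha hr hn (by omega) (by omega)) _
          _ ≤ (fun r => w (x (2 * p + r))) 0 := by
              apply telescope hq (fun r => w (x (2 * p + r))) (m - (2 * p + 1)) _ _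
                (fun r => e (2 * p + r)) (fun r => he _)
              · intro r hr'
                exact (w_next_of_gt w hq hr (i := 2 * p + r) (by omega)
                  (P.w_big w hq ha hr hn _ (by omega) (by omega))).2
              · intro r hr'
                exact (P.w_big w hq ha hr hn _ (by omega) (by omega)).le
          _ = w (x (2 * p)) := by simp
      have h3 : w (x (2 * p)) = (w (x 0))⁻¹ := by
        have := P.w_refl w hq ha hr hn p hone le_rfl (by omega)
        rwa [show p + p = 2 * p by ring, show p - p = 0 by omega] at this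
      obtain ⟨n1, _⟩ := hn 0 (by omega)
      have n1' : w (x 0) ≠ 0 := by simpa using n1
      rw [hsplit]
      calc w (x 0) * ((∏ l ∈ Finset.Ico 1 (2 * p + 1), w (yy q (q ^ m + 2) x l) ^ e l) *
            ∏ l ∈ Finset.Ico (2 * p + 1) m, w (yy q (q ^ m + 2) x l) ^ e l)
          ≤ w (x 0) * (1 * (w (x 0))⁻¹) :=
            mul_le_mul' le_rfl (mul_le_mul' h1 (h3 ▸ h2))
        _ = 1 := by rw [one_mul, mul_inv_cancel₀ n1']
    · calc w (x 0) * ∏ l ∈ Finset.Ico 1 m, w (yy q (q ^ m + 2) x l) ^ e l ≤ 1 * 1 := by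
            apply mul_le_mul' h0.le
            apply Finset.prod_le_one'
            intro l hl
            rw [Finset.mem_Ico] at hl
            exact pow_le_one₀ zero_le (P.yy_le_one w hq ha hr hn hl.2 (by omega))
        _ = 1 := one_mul 1

/-- **Local statement at `x 0 = ω ≠ 0`.** -/
theorem local_omega (hq : 2 ≤ q) (hr : Rel q m x) (hn : Ndg q m x)
    (h0 : w (x 0) = 1) (h1 : w (x 0 ^ q + x 0) < 1) (hm : 1 ≤ m)
    (e : ℕ → ℕ) (he : ∀ i, e i < q) :
    w ((x 0 ^ q + x 0) * ∏ l ∈ Finset.Ico 1 m, x l ^ e l) ≤ 1 := by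
  rw [map_mul, map_prod]
  simp only [map_pow]
  have hτ : w (x 0 ^ (q - 1) + 1) = w (x 0 ^ q + x 0) := by
    rw [AS_eq hq, map_mul, h0, one_mul]
  have hτ0 : w (x 0 ^ q + x 0) ≠ 0 := by
    rw [← hτ]; simpa using (hn 0 (by omega)).2
  by_cases hm2 : 1 < m
  · have e1 : w (x 1 ^ q + x 1) = (w (x 0 ^ q + x 0))⁻¹ := by
      have := congrArg w (hr 0 (by omega))
      rw [map_mul, hτ, map_pow, h0, one_pow, zero_add] at this
      exact eq_inv_of_mul_eq_one_left this
    have e2 : 1 < w (x 1 ^ q + x 1) := by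
      rw [e1]; exact (one_lt_inv₀ (zero_lt_iff.mpr hτ0)).mpr h1
    have e3 : 1 < w (x 1) := by
      by_contra h
      push Not at h
      have : w (x 1 ^ q + x 1) ≤ 1 := by
        apply Valuation.map_add_le
        · rw [map_pow]; exact pow_le_one₀ zero_le h
        · exact h
      exact absurd e2 (not_lt.mpr this)
    have e4 : w (x 1) ^ q = (w (x 0 ^ q + x 0))⁻¹ := by
      rw [← w_AS_of_gt w hq e3, e1]
    have hbig : ∀ l, 1 ≤ l → l < m → 1 < w (x l) := by
      intro l hl
      induction l, hl using Nat.le_induction with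
      | base => intro _; exact e3
      | succ l hl ih => intro hlm; exact (w_next_of_gt w hq hr hlm (ih (by omega))).1
    have key : ∏ l ∈ Finset.Ico 1 m, w (x l) ^ e l ≤ (w (x 0 ^ q + x 0))⁻¹ := by
      rw [Finset.prod_Ico_eq_prod_range]
      let b : ℕ → Γ := fun r => if r = 0 then (w (x 0 ^ q + x 0))⁻¹ else w (x r)
      calc ∏ r ∈ Finset.range (m - 1), w (x (1 + r)) ^ e (1 + r)
          = ∏ r ∈ Finset.range (m - 1), b (r + 1) ^ e (r + 1) := by
            apply Finset.prod_congr rfl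
            intro r _
            simp [b, add_comm]
        _ ≤ b 0 := by
            apply telescope hq b (m - 1) _ _ e he
            · intro r hr'
              rcases Nat.eq_zero_or_pos r with h | h
              · subst h; simpa [b] using e4
              · have hne : r ≠ 0 := by omega
                simp only [b, hne, if_false, Nat.add_eq_zero_iff, one_ne_zero, and_false]
                exact (w_next_of_gt w hq hr (by omega) (hbig r h (by omega))).2
            · intro r hr'
              rcases Nat.eq_zero_or_pos r with h | h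
              · subst h; simp only [b, if_true]; rw [← e1]; exact e2.le
              · have hne : r ≠ 0 := by omega
                simp only [b, hne, if_false]
                exact (hbig r h (by omega)).le
        _ = _ := by simp [b]
    calc w (x 0 ^ q + x 0) * ∏ l ∈ Finset.Ico 1 m, w (x l) ^ e l
        ≤ w (x 0 ^ q + x 0) * (w (x 0 ^ q + x 0))⁻¹ := mul_le_mul' le_rfl key
      _ = 1 := mul_inv_cancel₀ hτ0
  · have : m = 1 := by omega
    subst this
    simpa using h1.le

/-- **Local statement at the other places.** -/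
theorem local_unit (hq : 2 ≤ q) (hr : Rel q m x) (h0 : w (x 0) ≤ 1)
    (h1 : w (x 0 ^ q + x 0) = 1) :
    ∀ l < m, w (x l) ≤ 1 := by
  have key : ∀ l < m, w (x l) ≤ 1 ∧ w (x l ^ q + x l) = 1 := by
    intro l
    induction l with
    | zero => intro _; exact ⟨h0, h1⟩
    | succ l ih =>
      intro hl
      obtain ⟨h2, h3⟩ := ih (by omega)
      have h4 : w (x l) = 1 ∧ w (x l ^ (q - 1) + 1) = 1 := by
        rw [AS_eq hq, map_mul] at h3
        have h5 : w (x l ^ (q - 1) + 1) ≤ 1 := by
          apply Valuation.map_add_le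
          · rw [map_pow]; exact pow_le_one₀ zero_le h2
          · simp
        refine ⟨le_antisymm h2 ?_, le_antisymm h5 ?_⟩
        · calc 1 = w (x l) * w (x l ^ (q - 1) + 1) := h3.symm
            _ ≤ w (x l) * 1 := mul_le_mul' le_rfl h5
            _ = _ := mul_one _
        · calc 1 = w (x l) * w (x l ^ (q - 1) + 1) := h3.symm
            _ ≤ 1 * w (x l ^ (q - 1) + 1) := mul_le_mul' h2 le_rfl
            _ = _ := one_mul _
      have h6 : w (x (l + 1) ^ q + x (l + 1)) = 1 := by
        have := congrArg w (hr l hl)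
        rwa [map_mul, h4.2, mul_one, map_pow, h4.1, one_pow] at this
      exact ⟨w_le_one_of_AS w hq h6.le, h6⟩
  exact fun l hl => (key l hl).1

end Vale.Agent.P318.AG
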