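import Mathlib
import Vale.Agent.P318.AG.Val2

/-! Codes with good squares: the rational points of the tower, and the product over the elements
fixed by the `q`-power map. -/

namespace Vale.Agent.P318.AG

open Finset Polynomial

set_option linter.unusedSectionVars false

section fix

variable {K : Type*} [Field K] [Fintype K] [DecidableEq K] [CharP K 2] {q : ℕ}

theorem card_fix_le (hq : 2 ≤ q) : (univ.filter fun y : K => y ^ q = y).card ≤ q := by
  have hdeg : (X ^ q - X : K[X]).natDegree = q := by
    rw [natDegree_sub_eq_left_of_natDegree_lt]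
    · simp
    · simp; omega
  have hne : (X ^ q - X : K[X]) ≠ 0 := by
    intro h
    rw [h, natDegree_zero] at hdeg
    omega
  calc (univ.filter fun y : K => y ^ q = y).card
      ≤ (X ^ q - X : K[X]).roots.toFinset.card := by
        apply card_le_card
        intro y hy
        rw [mem_filter] at hy
        rw [Multiset.mem_toFinset, mem_roots hne]
        simp [IsRoot, hy.2]
    _ ≤ (X ^ q - X : K[X]).roots.card := Multiset.toFinset_card_le _
    _ ≤ (X ^ q - X : K[X]).natDegree := card_roots' _
    _ = q := hdeg

theorem card_fiber_le (ha : AddPow K q) (u : K) :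
    (univ.filter fun y : K => y ^ q + y = u).card ≤ (univ.filter fun y : K => y ^ q = y).card := by
  rcases (univ.filter fun y : K => y ^ q + y = u).eq_empty_or_nonempty with h | ⟨y₀, hy₀⟩
  · rw [h]; simp
  · rw [mem_filter] at hy₀
    apply card_le_card_of_injOn (fun y => y + y₀)
    · intro y hy
      have hy := (mem_filter.mp hy).2
      simp only [coe_filter, mem_univ, true_and, Set.mem_ofPred_eq]
      have h1 := AS_add ha y y₀
      rw [hy, hy₀.2, CharTwo.add_self_eq_zero] at h1
      exact CharTwo.add_eq_zero.mp h1
    · intro y _ y' _ h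
      exact add_right_cancel h

/-- The image of `y ↦ y ^ q + y` is contained in the fixed field. -/
theorem AS_fixed (ha : AddPow K q) (hK : Fintype.card K = q ^ 2) (y : K) :
    (y ^ q + y) ^ q = y ^ q + y := by
  have h := FiniteField.pow_card y
  rw [hK, sq, pow_mul] at h
  rw [ha, h, add_comm]

theorem card_fiber (hq : 2 ≤ q) (ha : AddPow K q) (hK : Fintype.card K = q ^ 2) {u : K}
    (hu : u ^ q = u) : (univ.filter fun y : K => y ^ q + y = u).card = q := by
  set Fx := univ.filter fun y : K => y ^ q = y with hFx
  have h1 : (univ : Finset K).card = ∑ v ∈ Fx, (univ.filter fun y : K => y ^ q + y = v).card := by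
    apply card_eq_sum_card_fiberwise
    intro y _
    rw [hFx]
    simp only [coe_filter, mem_univ, true_and, Set.mem_ofPred_eq]
    exact AS_fixed ha hK y
  have hle : ∀ v ∈ Fx, (univ.filter fun y : K => y ^ q + y = v).card ≤ q := fun v _ =>
    (card_fiber_le ha v).trans (card_fix_le hq)
  have hFxq : Fx.card ≤ q := card_fix_le hq
  by_contra hne
  have hlt : (univ.filter fun y : K => y ^ q + y = u).card < q :=
    lt_of_le_of_ne (hle u (by rw [hFx]; simp [hu])) hne
  have h2 : ∑ v ∈ Fx, (univ.filter fun y : K => y ^ q + y = v).card < ∑ _v ∈ Fx, q :=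
    sum_lt_sum hle ⟨u, by rw [hFx]; simp [hu], hlt⟩
  rw [← h1, card_univ, hK, sum_const, smul_eq_mul] at h2
  have h3 : Fx.card * q ≤ q * q := Nat.mul_le_mul_right _ hFxq
  rw [sq] at h2
  omega

theorem fix_eq : (univ.filter fun y : K => y ^ q = y) =
    univ.filter fun y : K => y ^ q + y = 0 := by
  ext y
  simp only [mem_filter, mem_univ, true_and]
  exact CharTwo.add_eq_zero.symm

theorem card_fix (hq : 2 ≤ q) (ha : AddPow K q) (hK : Fintype.card K = q ^ 2) :
    (univ.filter fun y : K => y ^ q = y).card = q := by
  rw [fix_eq]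
  exact card_fiber hq ha hK (by rw [zero_pow (by omega)])

/-- The product over the elements fixed by the `q`-power map. -/
theorem prod_fix (hq : 2 ≤ q) (ha : AddPow K q) (hK : Fintype.card K = q ^ 2) {L : Type*}
    [Field L] [Algebra K L] (z : L) :
    ∏ ω ∈ univ.filter (fun y : K => y ^ q = y), (z + algebraMap K L ω) = z ^ q + z := by
  have hdeg : (X ^ q - X : K[X]).natDegree = q := by
    rw [natDegree_sub_eq_left_of_natDegree_lt]
    · simp
    · simp; omega
  have hmon : (X ^ q - X : K[X]).Monic := by
    apply monic_X_pow_sub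
    rw [degree_X]
    exact_mod_cast hq
  have hne : (X ^ q - X : K[X]) ≠ 0 := hmon.ne_zero
  set Fx := univ.filter fun y : K => y ^ q = y with hFx
  have hsub : Fx.val ≤ (X ^ q - X : K[X]).roots := by
    rw [Multiset.le_iff_subset Fx.nodup]
    intro y hy
    have hy' : y ∈ Fx := hy
    rw [hFx, mem_filter] at hy'
    rw [mem_roots hne]
    simp [IsRoot, hy'.2]
  have hroots : (X ^ q - X : K[X]).roots = Fx.val := by
    symm
    apply Multiset.eq_of_le_of_card_le hsub
    calc (X ^ q - X : K[X]).roots.card ≤ (X ^ q - X : K[X]).natDegree := card_roots' _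
      _ = q := hdeg
      _ = Fx.card := (card_fix hq ha hK).symm
      _ = Fx.val.card := rfl
  have hprod : (∏ ω ∈ Fx, (X - C ω) : K[X]) = X ^ q - X := by
    have h := prod_multiset_X_sub_C_of_monic_of_roots_card_eq hmon (by
      rw [hroots, hdeg]
      exact card_fix hq ha hK)
    rw [hroots] at h
    exact h
  have h2 := congrArg (aeval z) hprod
  rw [map_prod] at h2
  have : CharP L 2 := charP_of_injective_algebraMap (algebraMap K L).injective 2
  simp only [CharTwo.sub_eq_add, map_add, aeval_X, aeval_C, map_pow] at h2
  exact h2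

/-- Every valuation of an extension has the residue property. -/
theorem hasRes (hq : 2 ≤ q) (ha : AddPow K q) (hK : Fintype.card K = q ^ 2) {L : Type*}
    [Field L] [Algebra K L] {Γ : Type*} [LinearOrderedCommGroupWithZero Γ] (w : Valuation L Γ) :
    HasRes q w := by
  intro z hz
  rw [← prod_fix hq ha hK z, map_prod] at hz
  by_contra hcon
  push Not at hcon
  have h1 : 1 ≤ ∏ ω ∈ univ.filter (fun y : K => y ^ q = y), w (z + algebraMap K L ω) := by
    apply Finset.prod_induction _ (fun x => 1 ≤ x)
    · intro a b ha hb
      calc (1 : Γ) = 1 * 1 := (mul_one 1).symm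
        _ ≤ a * b := mul_le_mul' ha hb
    · exact le_rfl
    · intro ω hω
      apply hcon
      rw [← map_pow, (mem_filter.mp hω).2]
  exact absurd hz (not_lt.mpr h1)

end fix

section points

variable {K : Type*} [Field K] [Fintype K] [CharP K 2] {q : ℕ}

/-- The rational points. -/
theorem exists_points (hq : 2 ≤ q) (ha : AddPow K q) (hK : Fintype.card K = q ^ 2) (m : ℕ)
    (hm : 1 ≤ m) : ∃ (S : Type) (_ : Fintype S) (pt : S → ℕ → K),
      Fintype.card S = (q - 1) * q ^ m ∧
      (∀ P, Rel q m (pt P) ∧ ∀ i < m, pt P i ^ q + pt P i ≠ 0) ∧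
      ∀ P P', (∀ i < m, pt P i = pt P' i) → P = P' := by
  classical
  induction m, hm using Nat.le_induction with
  | base =>
    let T := {x : K // x ^ q + x ≠ 0}
    have hcard : Fintype.card T = (q - 1) * q ^ 1 := by
      have h0 := card_fiber hq ha hK (u := (0 : K)) (by rw [zero_pow (by omega)])
      have h1 : Fintype.card {x : K // x ^ q + x = 0} = q := by
        rw [Fintype.card_subtype]; exact h0
      have h2 := Fintype.card_subtype_compl (fun x : K => x ^ q + x = 0)
      have h3 : Fintype.card T = Fintype.card {x : K // ¬ (x ^ q + x = 0)} := rfl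
      rw [h3, h2, h1, hK, pow_one, Nat.sub_mul, one_mul, sq]
    let e := Fintype.equivFin T
    refine ⟨Fin (Fintype.card T), inferInstance, fun P _ => (e.symm P).1, ?_, ?_, ?_⟩
    · rw [Fintype.card_fin]; exact hcard
    · intro P
      refine ⟨fun i hi => by omega, fun i _ => (e.symm P).2⟩
    · intro P P' h
      have := h 0 (by omega)
      exact e.symm.injective (Subtype.ext this)
  | succ m hm ih =>
    obtain ⟨S, _, pt, hcard, hpt, hinj⟩ := ih
    let u : S → K := fun P => pt P (m - 1) ^ q / (pt P (m - 1) ^ (q - 1) + 1)
    have hxne : ∀ P, pt P (m - 1) ^ (q - 1) + 1 ≠ 0 ∧ pt P (m - 1) ≠ 0 := by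
      intro P
      have h := (hpt P).2 (m - 1) (by omega)
      rw [AS_eq hq] at h
      exact ⟨right_ne_zero_of_mul h, left_ne_zero_of_mul h⟩
    have hu0 : ∀ P, u P ≠ 0 := fun P =>
      div_ne_zero (pow_ne_zero _ (hxne P).2) (hxne P).1
    have huq : ∀ P, u P ^ q = u P := by
      intro P
      set x := pt P (m - 1) with hx
      have h2 : x ^ q ^ 2 = x := by
        have := FiniteField.pow_card x
        rwa [hK] at this
      have hAS : (x ^ q + x) ^ q = x ^ q + x := AS_fixed ha hK x
      have hu : u P = x ^ (q + 1) / (x ^ q + x) := by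
        show x ^ q / (x ^ (q - 1) + 1) = _
        rw [AS_eq hq x]
        rw [div_eq_div_iff (hxne P).1 (mul_ne_zero (hxne P).2 (hxne P).1)]
        ring
      rw [hu, div_pow, hAS]
      congr 1
      rw [← pow_mul, add_mul, one_mul, ← sq, pow_add, h2, pow_succ]
      ring
    let T := Σ P : S, {y : K // y ^ q + y = u P}
    have hcardT : Fintype.card T = (q - 1) * q ^ (m + 1) := by
      have h1 : Fintype.card T = ∑ P : S, Fintype.card {y : K // y ^ q + y = u P} :=
        Fintype.card_sigma
      rw [h1]
      have h2 : ∀ P : S, Fintype.card {y : K // y ^ q + y = u P} = q := by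
        intro P
        rw [Fintype.card_subtype]
        exact card_fiber hq ha hK (huq P)
      simp only [h2, sum_const, card_univ, smul_eq_mul, hcard]
      ring
    let e := Fintype.equivFin T
    refine ⟨Fin (Fintype.card T), inferInstance,
      fun P i => if i < m then pt (e.symm P).1 i else (e.symm P).2.1, ?_, ?_, ?_⟩
    · rw [Fintype.card_fin]; exact hcardT
    · intro P
      refine ⟨fun i hi => ?_, fun i hi => ?_⟩
      · dsimp only
        by_cases h : i + 1 < m
        · rw [if_pos h, if_pos (by omega)]
          exact (hpt (e.symm P).1).1 i h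
        · have hi' : i = m - 1 := by omega
          rw [if_neg h, if_pos (by omega), (e.symm P).2.2, hi']
          exact div_mul_cancel₀ _ (hxne (e.symm P).1).1
      · dsimp only
        by_cases h : i < m
        · rw [if_pos h]; exact (hpt (e.symm P).1).2 i h
        · rw [if_neg h, (e.symm P).2.2]; exact hu0 _
    · intro P P' h
      apply e.symm.injective
      have h1 : (e.symm P).1 = (e.symm P').1 := by
        apply hinj
        intro i hi
        have := h i (by omega)
        simpa only [if_pos hi] using this
      have h2 : (e.symm P).2.1 = (e.symm P').2.1 := by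
        have := h m (by omega)
        simpa only [lt_irrefl, if_false] using this
      generalize e.symm P = A at *
      generalize e.symm P' = B at *
      obtain ⟨A1, A2, hA⟩ := A
      obtain ⟨B1, B2, hB⟩ := B
      simp only at h1 h2
      subst h1
      subst h2
      rfl

end points

end Vale.Agent.P318.AG
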