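import Vale.Agent.P318.AG.MonVal

/-! Codes with good squares: an integral element of the coordinate ring with positive valuation
at infinity is zero. -/

namespace Vale.Agent.P318.AG

open WithZero Polynomial

variable {k L : Type*} [Field k] [Field L] [Algebra k L]
variable {q m : ℕ} {x : ℕ → L}

/-- The span of the monomials is stable under the subring generated by the constants and `x 0`. -/
theorem closure_mul_mem (hq : 2 ≤ q) {i : ℕ} {b : L}
    (hb : b ∈ Subring.closure (Set.range (algebraMap k L) ∪ {x 0})) :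
    ∀ g ∈ MM k q x i, b * g ∈ MM k q x i := by
  induction hb using Subring.closure_induction with
  | mem y hy =>
    intro g hg
    rcases hy with ⟨c, rfl⟩ | hy
    · rw [← Algebra.smul_def]
      exact Submodule.smul_mem _ _ hg
    · rw [Set.mem_singleton_iff] at hy
      subst hy
      exact xi0_mul_mem hq hg
  | zero => intro g _; rw [zero_mul]; exact Submodule.zero_mem _
  | one => intro g hg; rwa [one_mul]
  | add y z _ _ hy hz => intro g hg; rw [add_mul]; exact Submodule.add_mem _ (hy g hg) (hz g hg)
  | neg y _ hy => intro g hg; rw [neg_mul]; exact Submodule.neg_mem _ (hy g hg)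
  | mul y z _ _ hy hz => intro g hg; rw [mul_assoc]; exact hy _ (hz g hg)

theorem exists_pow_mul_lt_one {V u : ℤᵐ⁰} (hu : u < 1) : ∃ n : ℕ, V * u ^ n < 1 := by
  by_cases hu0 : u = 0
  · exact ⟨1, by rw [hu0]; simp⟩
  by_cases hV0 : V = 0
  · exact ⟨0, by rw [hV0]; simp⟩
  have h1 : log u < 0 := by
    rw [← exp_log hu0, ← exp_zero, exp_lt_exp] at hu
    exact hu
  refine ⟨(log V).toNat + 1, ?_⟩
  have h3 : V * u ^ ((log V).toNat + 1) = exp (log V + ((log V).toNat + 1 : ℕ) • log u) := by
    rw [exp_add, exp_nsmul, exp_log hV0, exp_log hu0]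
  rw [h3, ← exp_zero, exp_lt_exp, nsmul_eq_mul]
  have h2 : log V ≤ ((log V).toNat : ℤ) := Int.self_le_toNat _
  push_cast
  nlinarith

/-- **[AG-zero]** -/
theorem eq_zero_of_integral (v : Valuation L ℤᵐ⁰) (hq : 2 ≤ q) (hm : 1 ≤ m)
    (hk : ∀ c : k, v (algebraMap k L c) ≤ 1)
    (hx : ∀ i < m, v (x i) = exp ((q : ℤ) ^ (m - 1 - i))) (hr : Rel q m x) {a : L}
    (ha : AA q (x 0) * a = 1) {f : L} (hf : f ∈ RR k x a (m - 1))
    (hint : IsIntegral (Subring.closure (Set.range (algebraMap k L) ∪ {x 0})) f)
    (hv : v f < 1) : f = 0 := by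
  obtain ⟨p, hp, hpf⟩ := hint
  have hA : AA q (x 0) ≠ 0 := fun h => by rw [h, zero_mul] at ha; exact zero_ne_one ha
  -- the denominators of the first powers
  choose c hc using fun i : ℕ => red (k := k) hq hr ha (m - 1) (by omega) (f ^ i)
    (pow_mem hf i)
  set C := ∑ i ∈ Finset.range p.natDegree, c i with hC
  have h1 : ∀ n : ℕ, AA q (x 0) ^ C * f ^ n ∈ MM k q x (m - 1) := by
    intro n
    induction n using Nat.strong_induction_on with
    | _ n ih =>
      by_cases hn : n < p.natDegree
      · exact AA_pow_mono hq (Finset.single_le_sum (f := c) (fun _ _ => Nat.zero_le _)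
          (Finset.mem_range.2 hn)) (hc n)
      · push Not at hn
        have h2 : f ^ p.natDegree = - ∑ i ∈ Finset.range p.natDegree, (p.coeff i : L) * f ^ i := by
          have h3 := hpf
          rw [eval₂_eq_sum_range, Finset.sum_range_succ, hp.coeff_natDegree, map_one, one_mul] at h3
          exact (neg_eq_of_add_eq_zero_right h3).symm
        have h4 : AA q (x 0) ^ C * f ^ n = - ∑ i ∈ Finset.range p.natDegree,
            (p.coeff i : L) * (AA q (x 0) ^ C * f ^ (n - p.natDegree + i)) := by
          have h5 : f ^ n = f ^ (n - p.natDegree) * f ^ p.natDegree := by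
            rw [← pow_add]; congr 1; omega
          rw [h5, h2, mul_neg, mul_neg, Finset.mul_sum, Finset.mul_sum]
          congr 1
          refine Finset.sum_congr rfl fun i _ => ?_
          rw [pow_add]
          ring
        rw [h4]
        refine Submodule.neg_mem _ (Submodule.sum_mem _ fun i hi => ?_)
        exact closure_mul_mem hq (p.coeff i).2 _ (ih _ (by have := Finset.mem_range.1 hi; omega))
  obtain ⟨n, hn⟩ := exists_pow_mul_lt_one (V := v (AA q (x 0) ^ C)) hv
  have h6 : AA q (x 0) ^ C * f ^ n = 0 := by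
    by_contra h7
    have h8 := one_le_v_of_mem v hq hm hk hx (h1 n) h7
    rw [map_mul, map_pow v f n] at h8
    exact absurd hn (not_lt.2 h8)
  rcases mul_eq_zero.1 h6 with h9 | h9
  · exact absurd h9 (pow_ne_zero _ hA)
  · by_contra hf0
    exact absurd h9 (pow_ne_zero _ hf0)

end Vale.Agent.P318.AG
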