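import Vale.Agent.P318.AG.Field
import Vale.Agent.P318.AG.Points
import Vale.Agent.P318.AG.Laurent
import Vale.Agent.P318.AG.Zero
import Vale.Agent.P318.H591.Count

/-! Codes with good squares, part 6: assembly. -/

set_option linter.unusedSectionVars false
set_option linter.unusedVariables false

namespace Vale.Agent.P318.AG

open WithZero

section general

variable {k L : Type*} [Field k] [Field L] [Algebra k L]
variable {q m : ℕ} {x : ℕ → L} (v : Valuation L ℤᵐ⁰)

/-- family with distinct values is linearly independent -/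
theorem linearIndependent_of_val (hk : ∀ c : k, v (algebraMap k L c) ≤ 1) {ι : Type*}
    (f : ι → L) (d : ι → ℤ) (hd : Function.Injective d) (hf : ∀ i, v (f i) = exp (d i)) :
    LinearIndependent k f := by
  classical
  rw [linearIndependent_iff']
  intro s g hg
  by_contra hcon
  push Not at hcon
  obtain ⟨i0, hi0, hgi0⟩ := hcon
  let s' := s.filter (fun i => g i ≠ 0)
  have hs' : s'.Nonempty := ⟨i0, Finset.mem_filter.mpr ⟨hi0, hgi0⟩⟩
  obtain ⟨N, hN, hmax⟩ := s'.exists_max_image d hs'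
  have hsum : ∑ i ∈ s', g i • f i = 0 := by
    rw [← hg]
    apply Finset.sum_subset (Finset.filter_subset _ _)
    intro i hi hi'
    have : g i = 0 := by
      by_contra h
      exact hi' (Finset.mem_filter.mpr ⟨hi, h⟩)
    rw [this, zero_smul]
  have hval : ∀ i ∈ s', v (g i • f i) = exp (d i) := by
    intro i hi
    rw [Algebra.smul_def, map_mul, v_const v hk (Finset.mem_filter.mp hi).2, one_mul, hf]
  have h1 : v (∑ i ∈ s', g i • f i) = v (g N • f N) := by
    apply Valuation.map_sum_eq_of_lt v hN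
    intro i hi
    rw [Finset.mem_sdiff, Finset.mem_singleton] at hi
    rw [hval i hi.1, hval N hN, exp_lt_exp]
    exact lt_of_le_of_ne (hmax i hi.1) (fun h => hi.2 (hd h))
  rw [hsum, map_zero, hval N hN] at h1
  exact exp_ne_zero h1.symm

theorem ndg_of_val (hq : 2 ≤ q) (hx : ∀ i < m, v (x i) = exp ((q : ℤ) ^ (m - 1 - i))) :
    Ndg q m x := by
  intro i hi
  have h1 : 1 < v (x i) := by
    rw [hx i hi, ← exp_zero, exp_lt_exp]
    positivity
  constructor
  · intro h
    rw [h, map_zero] at h1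
    exact absurd h1 (not_lt.mpr zero_le)
  · intro h
    have h2 : v (x i ^ (q - 1) + 1) = v (x i) ^ (q - 1) := by
      rw [Valuation.map_add_eq_of_lt_left, map_pow]
      rw [map_pow, map_one]
      exact one_lt_pow₀ h1 (by omega)
    rw [h, map_zero] at h2
    have h3 : v (x i) ≠ 0 := (lt_trans zero_lt_one h1).ne'
    exact pow_ne_zero _ h3 h2.symm

theorem transc_of_val (hq : 2 ≤ q) (hm : 1 ≤ m) (hk : ∀ c : k, v (algebraMap k L c) ≤ 1)
    (hx : ∀ i < m, v (x i) = exp ((q : ℤ) ^ (m - 1 - i))) :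
    ∀ s : Polynomial k, s ≠ 0 → Polynomial.aeval (x 0) s ≠ 0 := by
  have hli : LinearIndependent k (fun n : ℕ => x 0 ^ n) := by
    apply linearIndependent_of_val v hk _ (fun n : ℕ => (n : ℤ) * (q : ℤ) ^ (m - 1))
    · intro a b h
      have hq0 : ((q : ℤ) ^ (m - 1)) ≠ 0 := by positivity
      exact_mod_cast mul_right_cancel₀ hq0 h
    · intro n
      rw [map_pow, hx 0 (by omega), ← exp_nsmul, nsmul_eq_mul]
      simp
  intro s hs h
  apply hs
  rw [Polynomial.aeval_eq_sum_range] at h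
  ext n
  rw [linearIndependent_iff'] at hli
  by_cases hn : n ∈ Finset.range (s.natDegree + 1)
  · simpa using hli _ _ h n hn
  · rw [Finset.mem_range, not_lt] at hn
    rw [Polynomial.coeff_eq_zero_of_natDegree_lt (by omega), Polynomial.coeff_zero]

/-- the base ring `k[x 0]` -/
abbrev BB (k : Type*) {L : Type*} [Field k] [Field L] [Algebra k L] (x : ℕ → L) : Subring L :=
  Subring.closure (Set.range (algebraMap k L) ∪ {x 0})

theorem PQ_val (hq : 2 ≤ q) (hm : 1 ≤ m) (hk : ∀ c : k, v (algebraMap k L c) ≤ 1)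
    (hx : ∀ i < m, v (x i) = exp ((q : ℤ) ^ (m - 1 - i))) {p : L}
    (hp : p ∈ PQ k q x (m - 1)) : v p < 1 := by
  induction hp using Submodule.span_induction with
  | mem y hy =>
    obtain ⟨j, n, hn, rfl⟩ := hy
    rw [map_mul, map_pow, map_inv₀, hx 0 (by omega), v_mon_top v hq hm hx, ← exp_neg,
      ← exp_nsmul, ← exp_add, ← exp_zero, exp_lt_exp]
    have h1 : (n : ℤ) < (q : ℤ) ^ (m - 1) := by exact_mod_cast hn
    have h2 : (0 : ℤ) ≤ (j : ℤ) * (q : ℤ) ^ (m - 1) := by positivity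
    rw [nsmul_eq_mul]
    push_cast
    simp only [Nat.sub_zero]
    nlinarith
  | zero => simp
  | add y z _ _ hy hz => exact Valuation.map_add_lt _ hy hz
  | smul c y _ hy =>
    rw [Algebra.smul_def, map_mul]
    calc v (algebraMap k L c) * v y ≤ 1 * v y := mul_le_mul' (hk c) le_rfl
      _ = v y := one_mul _
      _ < 1 := hy

end general

/-- The zero lemma (AG-zero). -/
theorem zero_of_integral {k L : Type*} [Field k] [Field L] [Algebra k L] {q m : ℕ} (hq : 2 ≤ q)
    (hm : 1 ≤ m) (v : Valuation L ℤᵐ⁰) (hk : ∀ c : k, v (algebraMap k L c) ≤ 1) (x : ℕ → L)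
    (hx : ∀ i < m, v (x i) = exp ((q : ℤ) ^ (m - 1 - i))) (hr : Rel q m x) {a : L}
    (ha : AA q (x 0) * a = 1) {f : L} (hf : f ∈ RR k x a (m - 1))
    (hint : IsIntegral (BB k x) f) (hv : v f < 1) : f = 0 :=
  eq_zero_of_integral v hq hm hk hx hr ha hf hint hv

section product

variable {k L S : Type*} [Field k] [Field L] [Algebra k L] [Fintype S] [DecidableEq S]
variable {q m : ℕ} {x : ℕ → L} {pt : S → ℕ → k}

/-- the chain in the product ring -/
def xi (x : ℕ → L) (pt : S → ℕ → k) : ℕ → L × (S → k) := fun i => (x i, fun P => pt P i)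

/-- the inverse of `A (xi 0)` -/
noncomputable def ainv (q : ℕ) (x : ℕ → L) (pt : S → ℕ → k) : L × (S → k) :=
  ((AA q (x 0))⁻¹, fun P => (AA q (pt P 0))⁻¹)

theorem xi_rel (hx : Rel q m x) (hp : ∀ P, Rel q m (pt P)) : Rel q m (xi x pt) := by
  intro i hi
  refine Prod.ext (hx i hi) ?_
  funext P
  exact hp P i hi

theorem xi_ainv (h0 : AA q (x 0) ≠ 0) (hp : ∀ P, AA q (pt P 0) ≠ 0) :
    AA q (xi x pt 0) * ainv q x pt = 1 := by
  refine Prod.ext (mul_inv_cancel₀ h0) ?_
  funext P
  exact mul_inv_cancel₀ (hp P)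

/-- elements which become integral after multiplication by a power of `A (x 0)` -/
def QI (k : Type*) {L : Type*} [Field k] [Field L] [Algebra k L] (q : ℕ) (x : ℕ → L) (g : L) :
    Prop := ∃ c : ℕ, IsIntegral (BB k x) (AA q (x 0) ^ c * g)

theorem isIntegral_of_mem_BB {g : L} (hg : g ∈ BB k x) : IsIntegral (BB k x) g :=
  isIntegral_algebraMap (R := BB k x) (x := ⟨g, hg⟩)

theorem x0_mem_BB : x 0 ∈ BB k x := Subring.subset_closure (Or.inr rfl)

theorem AA_integral : IsIntegral (BB k x) (AA q (x 0)) :=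
  isIntegral_of_mem_BB (add_mem (pow_mem x0_mem_BB _) x0_mem_BB)

theorem QI.up {g : L} {c d : ℕ} (h : c ≤ d) (hg : IsIntegral (BB k x) (AA q (x 0) ^ c * g)) :
    IsIntegral (BB k x) (AA q (x 0) ^ d * g) := by
  obtain ⟨e, rfl⟩ := Nat.exists_eq_add_of_le h
  rw [add_comm, pow_add, mul_assoc]
  exact (AA_integral.pow e).mul hg

theorem QI.mul {g h : L} (hg : QI k q x g) (hh : QI k q x h) : QI k q x (g * h) := by
  obtain ⟨c, hc⟩ := hg
  obtain ⟨d, hd⟩ := hh
  refine ⟨c + d, ?_⟩
  have e : AA q (x 0) ^ (c + d) * (g * h) = (AA q (x 0) ^ c * g) * (AA q (x 0) ^ d * h) := by ring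
  rw [e]; exact hc.mul hd

theorem QI.add {g h : L} (hg : QI k q x g) (hh : QI k q x h) : QI k q x (g + h) := by
  obtain ⟨c, hc⟩ := hg
  obtain ⟨d, hd⟩ := hh
  refine ⟨max c d, ?_⟩
  rw [mul_add]
  exact (QI.up (le_max_left c d) hc).add (QI.up (le_max_right c d) hd)

theorem QI.of_integral {g : L} (hg : IsIntegral (BB k x) g) : QI k q x g := ⟨0, by simpa using hg⟩

theorem QI.const (c : k) : QI k q x (algebraMap k L c) :=
  QI.of_integral (isIntegral_of_mem_BB (Subring.subset_closure (Or.inl ⟨c, rfl⟩)))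

theorem QI.one : QI k q x (1 : L) := QI.of_integral isIntegral_one

theorem QI.pow {g : L} (hg : QI k q x g) (n : ℕ) : QI k q x (g ^ n) := by
  induction n with
  | zero => rw [pow_zero]; exact QI.one
  | succ n ih => rw [pow_succ]; exact ih.mul hg

theorem QI.prod {ι : Type*} (s : Finset ι) (f : ι → L) (h : ∀ i ∈ s, QI k q x (f i)) :
    QI k q x (∏ i ∈ s, f i) :=
  Finset.prod_induction f (QI k q x) (fun _ _ => QI.mul) QI.one h

theorem integral_root (hq : 2 ≤ q) {y α β : L} (hα : IsIntegral (BB k x) α)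
    (hβ : IsIntegral (BB k x) β) (h : y ^ q + α * y = β) : IsIntegral (BB k x) y := by
  let IC := integralClosure (BB k x) L
  have h1 : IsIntegral IC y := by
    refine ⟨Polynomial.X ^ q + (Polynomial.C ⟨α, hα⟩ * Polynomial.X - Polynomial.C ⟨β, hβ⟩), ?_, ?_⟩
    · apply Polynomial.monic_X_pow_add
      calc (Polynomial.C (⟨α, hα⟩ : IC) * Polynomial.X - Polynomial.C (⟨β, hβ⟩ : IC)).degree
          ≤ 1 := by
            refine (Polynomial.degree_sub_le _ _).trans (max_le ?_ ?_)
            · exact Polynomial.degree_C_mul_X_le _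
            · exact Polynomial.degree_C_le.trans (by decide)
        _ < (q : WithBot ℕ) := by exact_mod_cast hq
    · simp only [Polynomial.eval₂_add, Polynomial.eval₂_X_pow, Polynomial.eval₂_sub,
        Polynomial.eval₂_X, Polynomial.eval₂_C, Polynomial.eval₂_mul]
      change y ^ q + (α * y - β) = 0
      rw [← h]; ring
  exact isIntegral_trans y h1

theorem QI.chain (hq : 2 ≤ q) (hx : Rel q m x) (h0 : AA q (x 0) ≠ 0) :
    ∀ i < m, QI k q x (x i) ∧ ∃ b, AA q (x i) * b = 1 ∧ QI k q x b := by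
  intro i
  induction i with
  | zero =>
    intro _
    refine ⟨QI.of_integral (isIntegral_of_mem_BB x0_mem_BB), (AA q (x 0))⁻¹,
      mul_inv_cancel₀ h0, 1, ?_⟩
    rw [pow_one, mul_inv_cancel₀ h0]
    exact isIntegral_one
  | succ i ih =>
    intro hi
    obtain ⟨h1, b, hb, hbQ⟩ := ih (by omega)
    have h2 := AA_succ hq hx hi hb
    constructor
    · have h3 : QI k q x (x (i + 1) ^ q + x (i + 1)) := by
        rw [h2]; exact (h1.pow _).mul hbQ
      obtain ⟨e, he⟩ := h3
      refine ⟨e, integral_root hq (α := AA q (x 0) ^ (e * (q - 1)))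
        (β := AA q (x 0) ^ (e * (q - 1)) * (AA q (x 0) ^ e * (x (i + 1) ^ q + x (i + 1))))
        (AA_integral.pow _) ((AA_integral.pow _).mul he) ?_⟩
      have h4 : e * q = e * (q - 1) + e := by
        obtain ⟨q', rfl⟩ : ∃ q', q = q' + 1 := ⟨q - 1, by omega⟩
        simp only [Nat.add_sub_cancel]; ring
      rw [mul_pow, ← pow_mul, h4, pow_add]
      ring
    · refine ⟨(x i ^ (q - 1) + 1) ^ (q + 1) * b ^ q, ?_, ?_⟩
      · have h5 := hx i hi
        have h6 : AA q (x i) = x i * (x i ^ (q - 1) + 1) := by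
          rw [AA, mul_add, mul_one, ← pow_succ']
          congr 2
          omega
        calc AA q (x (i + 1)) * ((x i ^ (q - 1) + 1) ^ (q + 1) * b ^ q)
            = ((x (i + 1) ^ q + x (i + 1)) * (x i ^ (q - 1) + 1)) * (x i ^ (q - 1) + 1) ^ q * b ^ q := by
              rw [AA]; ring
          _ = (x i * (x i ^ (q - 1) + 1) * b) ^ q := by rw [h5, mul_pow, mul_pow]
          _ = 1 := by rw [← h6, hb, one_pow]
      · exact (((h1.pow _).add QI.one).pow _).mul (hbQ.pow _)

/-- (AG-sep 1) -/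
theorem sep_one (hq : 2 ≤ q) (hm : 1 ≤ m) (hx : Rel q m x) (hp : ∀ P, Rel q m (pt P))
    (h0 : AA q (x 0) ≠ 0) (hp0 : ∀ P, AA q (pt P 0) ≠ 0)
    (hinj : ∀ P P', (∀ i < m, pt P i = pt P' i) → P = P') (P : S) :
    ∃ f ∈ RR k (xi x pt) (ainv q x pt) (m - 1), IsIntegral (BB k x) f.1 ∧ f.2 = Pi.single P 1 := by
  classical
  have hex : ∀ P', P' ≠ P → ∃ i, i < m ∧ pt P i ≠ pt P' i := by
    intro P' hne
    by_contra hcon
    push Not at hcon
    exact hne (hinj P P' hcon).symm
  choose! i hi hine using hex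
  let φ : S → L × (S → k) := fun P' =>
    algebraMap k _ (pt P (i P') - pt P' (i P'))⁻¹ *
      (xi x pt (i P') - algebraMap k _ (pt P' (i P')))
  let g : L × (S → k) := ∏ P' ∈ Finset.univ.erase P, φ P'
  have hxiR : ∀ j < m, xi x pt j ∈ RR k (xi x pt) (ainv q x pt) (m - 1) := fun j hj =>
    RR_mono (by omega) (xi_mem_RR j)
  have hgR : g ∈ RR k (xi x pt) (ainv q x pt) (m - 1) := by
    apply Subalgebra.prod_mem
    intro P' hP'
    exact mul_mem (Subalgebra.algebraMap_mem _ _)
      (sub_mem (hxiR _ (hi P' (Finset.ne_of_mem_erase hP'))) (Subalgebra.algebraMap_mem _ _))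
  have hg1 : QI k q x g.1 := by
    have e : g.1 = ∏ P' ∈ Finset.univ.erase P, (φ P').1 := by
      exact map_prod (RingHom.fst L (S → k)) _ _
    rw [e]
    apply QI.prod
    intro P' hP'
    have e2 : (φ P').1 = algebraMap k L (pt P (i P') - pt P' (i P'))⁻¹ *
        (x (i P') + algebraMap k L (-(pt P' (i P')))) := by
      rw [map_neg, ← sub_eq_add_neg]; rfl
    rw [e2]
    exact (QI.const _).mul (((QI.chain hq hx h0 _ (hi P' (Finset.ne_of_mem_erase hP'))).1).add
      (QI.const _))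
  obtain ⟨c, hc⟩ := hg1
  have hφ2 : ∀ P' R, (φ P').2 R = (pt P (i P') - pt P' (i P'))⁻¹ *
      (pt R (i P') - pt P' (i P')) := fun P' R => rfl
  have hg2 : g.2 = Pi.single P 1 := by
    funext R
    have e : g.2 R = ∏ P' ∈ Finset.univ.erase P, (φ P').2 R := by
      have h1 : g.2 = ∏ P' ∈ Finset.univ.erase P, (φ P').2 := map_prod (RingHom.snd L (S → k)) _ _
      rw [h1, Finset.prod_apply]
    rw [e]
    by_cases hR : R = P
    · subst hR
      rw [Pi.single_eq_same]
      apply Finset.prod_eq_one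
      intro P' hP'
      rw [hφ2]
      exact inv_mul_cancel₀ (sub_ne_zero.mpr (hine P' (Finset.ne_of_mem_erase hP')))
    · rw [Pi.single_eq_of_ne hR]
      apply Finset.prod_eq_zero (Finset.mem_erase.mpr ⟨hR, Finset.mem_univ R⟩)
      rw [hφ2, sub_self, mul_zero]
  refine ⟨algebraMap k _ ((AA q (pt P 0))⁻¹ ^ c) * (AA q (xi x pt 0) ^ c * g), ?_, ?_, ?_⟩
  · refine mul_mem (Subalgebra.algebraMap_mem _ _) (mul_mem (pow_mem ?_ _) hgR)
    exact add_mem (pow_mem (hxiR 0 (by omega)) _) (hxiR 0 (by omega))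
  · have e : (algebraMap k (L × (S → k)) ((AA q (pt P 0))⁻¹ ^ c) * (AA q (xi x pt 0) ^ c * g)).1 =
        algebraMap k L ((AA q (pt P 0))⁻¹ ^ c) * (AA q (x 0) ^ c * g.1) := rfl
    rw [e]
    exact (isIntegral_of_mem_BB (Subring.subset_closure (Or.inl ⟨_, rfl⟩))).mul hc
  · funext R
    have e : (algebraMap k (L × (S → k)) ((AA q (pt P 0))⁻¹ ^ c) * (AA q (xi x pt 0) ^ c * g)).2 R =
        ((AA q (pt P 0))⁻¹ ^ c) * (AA q (pt R 0) ^ c * g.2 R) := rfl
    rw [e, hg2]
    by_cases hR : R = P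
    · subst hR
      rw [Pi.single_eq_same, mul_one, ← mul_pow, inv_mul_cancel₀ (hp0 R), one_pow]
    · rw [Pi.single_eq_of_ne hR, mul_zero, mul_zero]

/-- (AG-sep 2) -/
theorem inj_two (v : Valuation L ℤᵐ⁰) (hq : 2 ≤ q) (hm : 1 ≤ m)
    (hk : ∀ c : k, v (algebraMap k L c) ≤ 1)
    (hxv : ∀ i < m, v (x i) = exp ((q : ℤ) ^ (m - 1 - i)))
    (hx : Rel q m x) (hp : ∀ P, Rel q m (pt P))
    (h0 : AA q (x 0) ≠ 0) (hp0 : ∀ P, AA q (pt P 0) ≠ 0)
    {f : L × (S → k)} (hf : f ∈ RR k (xi x pt) (ainv q x pt) (m - 1)) (hf1 : f.1 = 0) : f = 0 := by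
  obtain ⟨c, hc⟩ := red hq (xi_rel hx hp) (xi_ainv h0 hp0) (m - 1) (by omega) f hf
  have hzero : AA q (xi x pt 0) ^ c * f = 0 := by
    have hc' := hc
    rw [MM, ← Set.image_univ, Finsupp.mem_span_image_iff_linearCombination] at hc'
    obtain ⟨l, -, hl⟩ := hc'
    have h1 : Finsupp.linearCombination k (mon q x (m - 1)) l = 0 := by
      have h2 : (Finsupp.linearCombination k (mon q (xi x pt) (m - 1)) l).1 =
          Finsupp.linearCombination k (mon q x (m - 1)) l := by
        rw [Finsupp.linearCombination_apply, Finsupp.linearCombination_apply, Finsupp.sum,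
          Finsupp.sum, Prod.fst_sum]
        apply Finset.sum_congr rfl
        intro n _
        rw [Prod.smul_fst]
        congr 1
        exact mon_map (RingHom.fst L (S → k)) (m - 1) n
      rw [← h2, hl, Prod.fst_mul, hf1, mul_zero]
    have hli := mon_linearIndependent v hq hm hk hxv
    rw [linearIndependent_iff] at hli
    have h3 := hli l h1
    rw [← hl, h3, map_zero]
  have h4 : (AA q (xi x pt 0) * ainv q x pt) ^ c * f = 0 := by
    rw [mul_pow, mul_right_comm, hzero, zero_mul]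
  rwa [xi_ainv h0 hp0, one_pow, one_mul] at h4

theorem fst_mem_RR {ξ : ℕ → L × (S → k)} {a : L × (S → k)} {i : ℕ} {f : L × (S → k)}
    (hf : f ∈ RR k ξ a i) : f.1 ∈ RR k (fun j => (ξ j).1) a.1 i := by
  have key : ∀ i, RR k ξ a i ≤ (RR k (fun j => (ξ j).1) a.1 i).comap (AlgHom.fst k L (S → k)) := by
    intro i
    induction i with
    | zero =>
      apply Algebra.adjoin_le
      rintro y (rfl | hy)
      · exact Algebra.subset_adjoin (by simp)
      · rw [Set.mem_singleton_iff] at hy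
        subst hy
        exact Algebra.subset_adjoin (by simp)
    | succ i ih =>
      apply sup_le
      · intro y hy
        exact RR_mono_succ i (ih hy)
      · apply Algebra.adjoin_le
        intro y hy
        rw [Set.mem_singleton_iff] at hy
        subst hy
        exact xi_mem_RR (ξ := fun j => (ξ j).1) (i + 1)
  exact key i hf

/-- lift of principal parts to the product ring -/
theorem lift_PQ (hq : 2 ≤ q) (hm : 1 ≤ m) (h0 : AA q (x 0) ≠ 0) {p : L} (hp : p ∈ PQ k q x (m - 1)) :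
    ∃ f ∈ RR k (xi x pt) (ainv q x pt) (m - 1), f.1 = p := by
  have hmon : ∀ i n, mon q (xi x pt) i n ∈ RR k (xi x pt) (ainv q x pt) i := by
    intro i
    induction i with
    | zero => intro n; rw [mon_zero]; exact pow_mem (xi_mem_RR 0) _
    | succ i ih =>
      intro n
      rw [mon_succ]
      exact mul_mem (pow_mem (xi_mem_RR _) _) (RR_mono_succ i (ih _))
  induction hp using Submodule.span_induction with
  | mem y hy =>
    obtain ⟨j, n, _, rfl⟩ := hy
    refine ⟨((xi x pt 0 ^ (q - 1) + 1) * ainv q x pt) ^ (j + 1) * mon q (xi x pt) (m - 1) n, ?_, ?_⟩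
    · exact mul_mem (pow_mem (mul_mem (add_mem (pow_mem (RR_mono (Nat.zero_le _) (xi_mem_RR 0)) _)
        (one_mem _)) (a_mem_RR _)) _) (hmon _ n)
    · have h1 : (mon q (xi x pt) (m - 1) n).1 = mon q x (m - 1) n :=
        mon_map (RingHom.fst L (S → k)) (m - 1) n
      rw [Prod.fst_mul, h1, Prod.pow_fst, Prod.fst_mul]
      congr 2
      change (x 0 ^ (q - 1) + 1) * (AA q (x 0))⁻¹ = (x 0)⁻¹
      have h2 : AA q (x 0) = x 0 * (x 0 ^ (q - 1) + 1) := by
        rw [AA, mul_add, mul_one, ← pow_succ']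
        congr 2
        omega
      rw [h2] at h0 ⊢
      have h3 := left_ne_zero_of_mul h0
      have h4 := right_ne_zero_of_mul h0
      field_simp
  | zero => exact ⟨0, zero_mem _, rfl⟩
  | add y z _ _ hy hz =>
    obtain ⟨f, hf, rfl⟩ := hy
    obtain ⟨g, hg, rfl⟩ := hz
    exact ⟨f + g, add_mem hf hg, rfl⟩
  | smul c y _ hy =>
    obtain ⟨f, hf, rfl⟩ := hy
    exact ⟨c • f, Subalgebra.smul_mem _ hf c, rfl⟩

end product

section filt

variable {k L S : Type*} [Field k] [Field L] [Algebra k L] [Fintype S] [DecidableEq S] {q m : ℕ}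
variable (v : Valuation L ℤᵐ⁰) (hk : ∀ c : k, v (algebraMap k L c) ≤ 1)

/-- the filtration -/
def WW (v : Valuation L ℤᵐ⁰) (hk : ∀ c : k, v (algebraMap k L c) ≤ 1)
    (q m : ℕ) (x : ℕ → L) (pt : S → ℕ → k) (J : ℕ) : Submodule k (L × (S → k)) where
  carrier := {f | f ∈ RR k (xi x pt) (ainv q x pt) (m - 1) ∧ IsIntegral (BB k x) f.1 ∧
    v f.1 ≤ exp (J : ℤ)}
  add_mem' := by
    rintro f g ⟨h1, h2, h3⟩ ⟨h1', h2', h3'⟩
    exact ⟨add_mem h1 h1', h2.add h2', Valuation.map_add_le _ h3 h3'⟩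
  zero_mem' := ⟨zero_mem _, isIntegral_zero, by simp⟩
  smul_mem' := by
    rintro c f ⟨h1, h2, h3⟩
    refine ⟨Subalgebra.smul_mem _ h1 c, ?_, ?_⟩
    · have h4 : (c • f).1 = algebraMap k L c * f.1 := by rw [Prod.smul_fst, Algebra.smul_def]
      rw [h4]
      refine IsIntegral.mul ?_ h2
      exact isIntegral_algebraMap (R := BB k x)
        (x := ⟨algebraMap k _ c, Subring.subset_closure (Or.inl ⟨c, rfl⟩)⟩)
    · rw [Prod.smul_fst, Algebra.smul_def, map_mul]
      calc _ ≤ 1 * exp (J : ℤ) := mul_le_mul' (hk c) h3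
        _ = _ := one_mul _

theorem mem_WW {x : ℕ → L} {pt : S → ℕ → k} {J : ℕ} {f : L × (S → k)} :
    f ∈ WW v hk q m x pt J ↔ f ∈ RR k (xi x pt) (ainv q x pt) (m - 1) ∧
      IsIntegral (BB k x) f.1 ∧ v f.1 ≤ exp (J : ℤ) := Iff.rfl

/-- **Assembly**: the pole filtration. -/
theorem poleFilt [CharP L 2] (hq : 2 ≤ q) (ha : AddPow L q) (hm : 1 ≤ m) {x : ℕ → L}
    {pt : S → ℕ → k}
    (hxv : ∀ i < m, v (x i) = exp ((q : ℤ) ^ (m - 1 - i)))
    (hx : Rel q m x) (hp : ∀ P, Rel q m (pt P)) (hp0 : ∀ P, AA q (pt P 0) ≠ 0)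
    (hinj : ∀ P P', (∀ i < m, pt P i = pt P' i) → P = P')
    (hR : ∀ V : ValuationSubring L, HasRes q V.valuation)
    (hcoef : ∀ J : ℤ, ∃ c : L → k, (∀ f g, c (f + g) = c f + c g) ∧
      (∀ r f, c (algebraMap k L r * f) = r * c f) ∧
      ∀ f, v f ≤ exp J → c f = 0 → v f ≤ exp (J - 1)) :
    H591.PoleFilt (WW v hk q m x pt) (AlgHom.snd k L (S → k)) (q ^ m) := by
  have hn : Ndg q m x := ndg_of_val v hq hxv
  have h0 : AA q (x 0) ≠ 0 := by
    rw [AA, AS_eq hq]
    exact mul_ne_zero (hn 0 (by omega)).1 (hn 0 (by omega)).2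
  have hainv : AA q (x 0) * (AA q (x 0))⁻¹ = 1 := mul_inv_cancel₀ h0
  have hvA : v (AA q (x 0)) = exp ((q : ℤ) ^ m) := by
    have h1 : 1 < v (x 0) := by
      rw [hxv 0 (by omega), ← exp_zero, exp_lt_exp]
      positivity
    rw [AA, w_AS_of_gt v hq h1, hxv 0 (by omega), ← exp_nsmul, nsmul_eq_mul]
    congr 1
    have : m = (m - 1 - 0) + 1 := by omega
    conv_rhs => rw [this]
    rw [pow_succ]
    push_cast
    ring
  -- elements with value < 1 vanish
  have hzero : ∀ J f, f ∈ WW v hk q m x pt J → v f.1 < 1 → f = 0 := by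
    rintro J f ⟨h1, h2, -⟩ h3
    apply inj_two v hq hm hk hxv hx hp h0 hp0 h1
    exact zero_of_integral hq hm v hk x hxv hx hainv (fst_mem_RR h1) h2 h3
  -- the coefficient map
  have hup : ∀ J, ∃ Φ : WW v hk q m x pt J →ₗ[k] (Fin (J + 1) → k), Function.Injective Φ := by
    intro J
    choose c' hadd hmul hc' using hcoef
    let c : ℤ → (L →ₗ[k] k) := fun J =>
      { toFun := c' J
        map_add' := hadd J
        map_smul' := fun r f => by rw [Algebra.smul_def, hmul]; rfl }
    have hc : ∀ (J : ℤ) f, v f ≤ exp J → c J f = 0 → v f ≤ exp (J - 1) := hc'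
    let Φ : WW v hk q m x pt J →ₗ[k] (Fin (J + 1) → k) :=
      LinearMap.pi fun j => (c (j : ℤ)) ∘ₗ (LinearMap.fst k L (S → k)) ∘ₗ (WW v hk q m x pt J).subtype
    refine ⟨Φ, ?_⟩
    rw [← LinearMap.ker_eq_bot, LinearMap.ker_eq_bot']
    rintro ⟨f, hf⟩ hΦ
    have hΦ' : ∀ j : Fin (J + 1), c (j : ℤ) f.1 = 0 := fun j => congrFun hΦ j
    have hdown : ∀ d : ℕ, d ≤ J + 1 → v f.1 ≤ exp ((J : ℤ) - d) := by
      intro d
      induction d with
      | zero => intro _; simpa using hf.2.2
      | succ d ih =>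
        intro hd
        have h1 := ih (by omega)
        have h2 := hΦ' ⟨J - d, by omega⟩
        have h3 : ((⟨J - d, by omega⟩ : Fin (J + 1)) : ℕ) = J - d := rfl
        have h4 : (((⟨J - d, by omega⟩ : Fin (J + 1)) : ℕ) : ℤ) = (J : ℤ) - d := by
          rw [h3]; omega
        rw [h4] at h2
        have := hc _ _ h1 h2
        rwa [show (J : ℤ) - d - 1 = (J : ℤ) - ((d + 1 : ℕ) : ℤ) by push_cast; ring] at this
    have h5 := hdown (J + 1) le_rfl
    have h6 : v f.1 < 1 := by
      refine lt_of_le_of_lt h5 ?_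
      rw [← exp_zero, exp_lt_exp]
      push_cast
      omega
    exact Subtype.ext (hzero J f hf h6)
  -- the functions of all pole orders
  have hfun : ∀ n : ℕ, ∃ f ∈ RR k (xi x pt) (ainv q x pt) (m - 1), IsIntegral (BB k x) f.1 ∧
      v f.1 = exp ((q : ℤ) ^ m + n) := by
    intro n
    obtain ⟨p, hpq, hN⟩ := exists_fn (k := k) hq hx hn hm (q ^ m + 2)
      (transc_of_val v hq hm hk hxv) n
    have hint := fn_integral hq ha hx hn hm hR n hpq hN
    obtain ⟨P, hP, hP1⟩ := lift_PQ (pt := pt) hq hm h0 hpq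
    have hmonT : ∀ i n, mon q (xi x pt) i n ∈ RR k (xi x pt) (ainv q x pt) i := by
      intro i
      induction i with
      | zero => intro n; rw [mon_zero]; exact pow_mem (xi_mem_RR 0) _
      | succ i ih =>
        intro n
        rw [mon_succ]
        exact mul_mem (pow_mem (xi_mem_RR _) _) (RR_mono_succ i (ih _))
    have h1 : (mon q (xi x pt) (m - 1) n).1 = mon q x (m - 1) n :=
      mon_map (RingHom.fst L (S → k)) (m - 1) n
    have h2 : (AA q (xi x pt 0) * (mon q (xi x pt) (m - 1) n + P)).1 =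
        AA q (x 0) * (mon q x (m - 1) n + p) := by
      rw [Prod.fst_mul, Prod.fst_add, h1, hP1]
      rfl
    refine ⟨AA q (xi x pt 0) * (mon q (xi x pt) (m - 1) n + P), ?_, ?_, ?_⟩
    · have hx0 : xi x pt 0 ∈ RR k (xi x pt) (ainv q x pt) (m - 1) :=
        RR_mono (Nat.zero_le _) (xi_mem_RR 0)
      exact mul_mem (add_mem (pow_mem hx0 _) hx0) (add_mem (hmonT _ n) hP)
    · rw [h2]; exact hint
    · rw [h2, map_mul, hvA]
      have h3 : v (mon q x (m - 1) n + p) = exp (n : ℤ) := by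
        rw [Valuation.map_add_eq_of_lt_left, v_mon_top v hq hm hxv]
        rw [v_mon_top v hq hm hxv]
        refine lt_of_lt_of_le (PQ_val v hq hm hk hxv hpq) ?_
        rw [← exp_zero, exp_le_exp]
        exact_mod_cast Nat.zero_le n
      rw [h3, ← exp_add]
  have hfin : ∀ J, FiniteDimensional k (WW v hk q m x pt J) := by
    intro J
    obtain ⟨Φ, hΦ⟩ := hup J
    exact FiniteDimensional.of_injective Φ hΦ
  refine ⟨?_, ?_, hfin, ?_, ?_, ?_, ?_⟩
  · intro i j hij f hf
    refine ⟨hf.1, hf.2.1, hf.2.2.trans ?_⟩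
    rw [exp_le_exp]
    exact_mod_cast hij
  · rintro i j f h ⟨h1, h2, h3⟩ ⟨h1', h2', h3'⟩
    refine ⟨mul_mem h1 h1', h2.mul h2', ?_⟩
    rw [Prod.fst_mul, map_mul]
    push_cast
    rw [exp_add]
    exact mul_le_mul' h3 h3'
  · intro J
    obtain ⟨Φ, hΦ⟩ := hup J
    have := LinearMap.finrank_le_finrank_of_injective hΦ
    simpa using this
  · intro J
    have := hfin J
    choose h hh1 hh2 hh3 using hfun
    rcases Nat.lt_or_ge J (q ^ m) with hJ | hJ
    · omega
    · have hli : LinearIndependent k (fun i : Fin (J + 1 - q ^ m) =>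
          (⟨h i, hh1 i, hh2 i, by
            rw [hh3, exp_le_exp]
            have := i.2
            have h7 : (i : ℕ) + q ^ m ≤ J := by omega
            have h8 : ((i : ℕ) : ℤ) + (q : ℤ) ^ m ≤ J := by exact_mod_cast h7
            linarith⟩ : WW v hk q m x pt J)) := by
        have h1 : LinearIndependent k (fun i : Fin (J + 1 - q ^ m) => (h i).1) := by
          apply linearIndependent_of_val v hk _ (fun i : Fin (J + 1 - q ^ m) => (q : ℤ) ^ m + (i : ℕ))
          · intro a b hab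
            have : ((a : ℕ) : ℤ) = (b : ℕ) := by simpa using hab
            exact Fin.ext (by exact_mod_cast this)
          · intro i; exact hh3 i
        exact LinearIndependent.of_comp
          ((LinearMap.fst k L (S → k)) ∘ₗ (WW v hk q m x pt J).subtype) h1
      have h9 := hli.fintype_card_le_finrank
      rw [Fintype.card_fin] at h9
      omega
  · rintro i j h f hh hh0 hf hhf
    have h1 : h.1 ≠ 0 := by
      intro h1
      exact hh0 (inj_two v hq hm hk hxv hx hp h0 hp0 hh.1 h1)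
    have h2 : h.1 * f.1 = 0 := by rw [← Prod.fst_mul, hhf]; rfl
    have h3 : f.1 = 0 := (mul_eq_zero.mp h2).resolve_left h1
    exact inj_two v hq hm hk hxv hx hp h0 hp0 hf.1 h3
  · intro P
    obtain ⟨f, hf, hfi, hf2⟩ := sep_one hq hm hx hp h0 hp0 hinj P
    by_cases hf0 : v f.1 = 0
    · exact ⟨0, f, ⟨hf, hfi, by rw [hf0]; exact zero_le⟩, hf2⟩
    · refine ⟨(log (v f.1)).toNat, f, ⟨hf, hfi, ?_⟩, hf2⟩
      calc v f.1 = exp (log (v f.1)) := (exp_log hf0).symm
        _ ≤ _ := by
          rw [exp_le_exp]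
          exact Int.self_le_toNat _

end filt

section final

variable {k : Type*} [Field k] [Fintype k]

theorem algebraMap_eq_C (c : k) : algebraMap k (LaurentSeries k) c = HahnSeries.C c := by
  rw [HahnSeries.algebraMap_apply']
  simp

theorem vInf_const (c : k) : vInf k (algebraMap k (LaurentSeries k) c) ≤ 1 := by
  have h := (LaurentSeries.valuation_le_iff_coeff_lt_eq_zero (K := k) (D := 0)
    (f := algebraMap k (LaurentSeries k) c)).mpr (by
      intro n hn
      rw [algebraMap_eq_C, HahnSeries.C_apply]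
      exact HahnSeries.coeff_single_of_ne hn.ne)
  simpa using h

theorem exists_coef (J : ℤ) : ∃ c : LaurentSeries k → k, (∀ f g, c (f + g) = c f + c g) ∧
    (∀ r f, c (algebraMap k _ r * f) = r * c f) ∧
    ∀ f, vInf k f ≤ exp J → c f = 0 → vInf k f ≤ exp (J - 1) := by
  refine ⟨fun f => f.coeff (-J), fun f g => rfl, fun r f => ?_, fun f h1 h2 => ?_⟩
  · rw [algebraMap_eq_C, HahnSeries.C_mul_eq_smul]
    simp
  · have h3 := (LaurentSeries.valuation_le_iff_coeff_lt_eq_zero (K := k) (D := -J) (f := f)).mp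
      (by simpa using h1)
    have h4 := (LaurentSeries.valuation_le_iff_coeff_lt_eq_zero (K := k) (D := -(J - 1)) (f := f)).mpr
      (by
        intro n hn
        rcases lt_or_eq_of_le (show n ≤ -J by omega) with h | h
        · exact h3 n h
        · rw [h]; exact h2)
    simpa using h4

/-- **Existence of codes with good squares over a constant field.** -/
theorem exists_code [CharP k 2] {a q : ℕ} (ha1 : 1 ≤ a) (hq : q = 2 ^ a)
    (hK : Fintype.card k = q ^ 2) (m : ℕ) (hm : 1 ≤ m) (hq8 : 8 ≤ q) :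
    ∃ C : Submodule k (Fin ((q - 1) * q ^ m) → k), q ^ m + 1 ≤ Module.finrank k C ∧
    ∀ v ∈ Submodule.span k {x | ∃ c ∈ C, ∃ c' ∈ C, x = c * c'}, v ≠ 0 →
      Nat.card {p // v p = 0} ≤ 5 * q ^ m := by
  classical
  have hq2 : 2 ≤ q := by omega
  have hCL : CharP (LaurentSeries k) 2 := charP_of_injective_algebraMap
    (algebraMap k (LaurentSeries k)).injective 2
  have haL : AddPow (LaurentSeries k) q := by rw [hq]; exact addPow_of a
  have hak : AddPow k q := by rw [hq]; exact addPow_of a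
  have hqk : ((q : ℕ) : k) = 0 := by
    rw [CharP.cast_eq_zero_iff k 2 q, hq]
    exact dvd_pow_self 2 (by omega)
  obtain ⟨x, hxv, hx⟩ := exists_tower (k := k) q m hq2 hqk
  obtain ⟨S, hS, pt, hcard, hpt, hinj⟩ := exists_points (K := k) hq2 hak hK m hm
  have H := poleFilt (k := k) (S := S) (vInf k) (fun c => vInf_const c) hq2 haL hm hxv hx
    (fun P => (hpt P).1) (fun P => (hpt P).2 0 (by omega)) hinj
    (fun V => hasRes hq2 hak hK V.valuation) exists_coef
  have h1 : 2 * q ^ m + q ^ m < (q - 1) * q ^ m := by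
    have : 0 < q ^ m := by positivity
    have h2 : 7 * q ^ m ≤ (q - 1) * q ^ m := Nat.mul_le_mul_right _ (by omega)
    omega
  obtain ⟨C, hC1, hC2⟩ := H.code_fin hcard h1
  refine ⟨C, by omega, fun v hv hv0 => ?_⟩
  have := hC2 v hv hv0
  omega

end final

end Vale.Agent.P318.AG
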