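import Vale.Agent.P318.AG.MonVal
import Vale.Agent.P318.AG.Val2

/-! Codes with good squares, part 5: triangular approximation at `x 0 = 0`. -/

set_option linter.unusedSectionVars false
set_option linter.unusedVariables false

namespace Vale.Agent.P318.AG

open WithZero

variable {k L : Type*} [Field k] [Field L] [Algebra k L] [CharP L 2]
variable {q m : ℕ} {x : ℕ → L}

/-- The tower of fields. -/
noncomputable def KK (k : Type*) {L : Type*} [Field k] [Field L] [Algebra k L] (x : ℕ → L) :
    ℕ → IntermediateField k L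
  | 0 => IntermediateField.adjoin k {x 0}
  | i + 1 => (IntermediateField.adjoin (KK k x i) {x (i + 1)}).restrictScalars k

theorem KK_mono_succ (i : ℕ) : KK k x i ≤ KK k x (i + 1) := by
  intro f hf
  have : f ∈ IntermediateField.adjoin (KK k x i) {x (i + 1)} :=
    (IntermediateField.adjoin (KK k x i) {x (i + 1)}).algebraMap_mem ⟨f, hf⟩
  exact this

theorem KK_mono {i j : ℕ} (h : i ≤ j) : KK k x i ≤ KK k x j := by
  induction j, h using Nat.le_induction with
  | base => exact le_rfl
  | succ j _ ih => exact ih.trans (KK_mono_succ j)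

theorem x_mem_KK (i : ℕ) : x i ∈ KK k x i := by
  cases i with
  | zero => exact IntermediateField.subset_adjoin k {x 0} rfl
  | succ i => exact IntermediateField.subset_adjoin (KK k x i) {x (i + 1)} rfl

theorem x_mem_KK' {i j : ℕ} (h : j ≤ i) : x j ∈ KK k x i := KK_mono h (x_mem_KK j)

/-- polynomials of degree `< d` in `x (i+1)` with coefficients in `KK i` -/
def DD (k : Type*) {L : Type*} [Field k] [Field L] [Algebra k L] (x : ℕ → L) (i d : ℕ)
    (f : L) : Prop :=
  ∃ r : ℕ → L, (∀ s, r s ∈ KK k x i) ∧ f = ∑ s ∈ Finset.range d, x (i + 1) ^ s * r s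

theorem KK_succ_dec (hq : 2 ≤ q) (hr : Rel q m x) (hn : Ndg q m x) {i : ℕ} (hi : i + 1 < m)
    {f : L} (hf : f ∈ KK k x (i + 1)) : DD k x i q f := by
  have hc : x (i + 1) ^ q + x (i + 1) ∈ KK k x i := by
    have h1 := hr i hi
    have h2 := (hn i (by omega)).2
    have h3 : x (i + 1) ^ q + x (i + 1) = x i ^ q / (x i ^ (q - 1) + 1) := by
      rw [eq_div_iff h2, h1]
    rw [h3]
    exact div_mem (pow_mem (x_mem_KK i) _) (add_mem (pow_mem (x_mem_KK i) _) (one_mem _))
  have hint : IsIntegral (KK k x i) (x (i + 1)) := by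
    refine ⟨Polynomial.X ^ q + (Polynomial.X - Polynomial.C ⟨_, hc⟩), ?_, ?_⟩
    · apply Polynomial.monic_X_pow_add
      calc (Polynomial.X - Polynomial.C (⟨_, hc⟩ : KK k x i)).degree = 1 :=
            Polynomial.degree_X_sub_C _
        _ < (q : WithBot ℕ) := by exact_mod_cast hq
    · simp only [Polynomial.eval₂_add, Polynomial.eval₂_X_pow, Polynomial.eval₂_sub,
        Polynomial.eval₂_X, Polynomial.eval₂_C]
      change x (i + 1) ^ q + (x (i + 1) - (x (i + 1) ^ q + x (i + 1))) = 0
      ring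
  have hf' : f ∈ Algebra.adjoin (KK k x i) {x (i + 1)} := by
    rw [← IntermediateField.adjoin_simple_toSubalgebra_of_isAlgebraic hint.isAlgebraic]
    exact hf
  have key : PP (KK k x i).toSubalgebra (x (i + 1)) q f := by
    clear hf
    induction hf' using Algebra.adjoin_induction with
    | mem y hy =>
      rw [Set.mem_singleton_iff] at hy
      subst hy
      have := (PP.ofR hq (y := x (i + 1)) (KK k x i).toSubalgebra.one_mem).muly hq hc
      simpa using this
    | algebraMap r => exact PP.ofR hq r.2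
    | add y z _ _ hy hz => exact hy.add hz
    | mul y z _ _ hy hz => exact hy.mul hq hc hz
  obtain ⟨r, hr', h⟩ := key
  exact ⟨r, hr', h⟩

theorem DD_add {i d : ℕ} {f g : L} (hf : DD k x i d f) (hg : DD k x i d g) :
    DD k x i d (f + g) := by
  obtain ⟨r, hr, rfl⟩ := hf
  obtain ⟨s, hs, rfl⟩ := hg
  refine ⟨fun i => r i + s i, fun i => add_mem (hr i) (hs i), ?_⟩
  rw [← Finset.sum_add_distrib]
  exact Finset.sum_congr rfl fun i _ => by ring

/-- The local ring of `k[x 0]` at `0`. -/
def Loc (k : Type*) {L : Type*} [Field k] [Field L] [Algebra k L] (z : L) (f : L) : Prop :=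
  ∃ r s : Polynomial k, s.coeff 0 ≠ 0 ∧ f = Polynomial.aeval z r / Polynomial.aeval z s

/-- The local lattice. -/
def NN (k : Type*) {L : Type*} [Field k] [Field L] [Algebra k L] (q : ℕ) (x y : ℕ → L) :
    ℕ → L → Prop
  | 0, f => ∃ r s : Polynomial k, s.coeff 0 ≠ 0 ∧ Polynomial.aeval (x 0) s ≠ 0 ∧
      f = Polynomial.aeval (x 0) r / Polynomial.aeval (x 0) s
  | i + 1, f => ∃ r : ℕ → L, (∀ s, NN k q x y i (r s)) ∧
      f = ∑ s ∈ Finset.range q, y (i + 1) ^ s * r s

theorem NN_zero_mem (y : ℕ → L) (i : ℕ) : NN k q x y i 0 := by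
  induction i with
  | zero => exact ⟨0, 1, by simp, by simp, by simp⟩
  | succ i ih => exact ⟨fun _ => 0, fun _ => ih, by simp⟩

theorem NN_add {y : ℕ → L} {i : ℕ} {f g : L} (hf : NN k q x y i f) (hg : NN k q x y i g) :
    NN k q x y i (f + g) := by
  induction i generalizing f g with
  | zero =>
    obtain ⟨r, s, h1, h2, rfl⟩ := hf
    obtain ⟨r', s', h1', h2', rfl⟩ := hg
    refine ⟨r * s' + r' * s, s * s', ?_, ?_, ?_⟩
    · rw [Polynomial.mul_coeff_zero]; exact mul_ne_zero h1 h1'
    · rw [map_mul]; exact mul_ne_zero h2 h2'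
    · rw [map_add, map_mul, map_mul, map_mul]
      field_simp
  | succ i ih =>
    obtain ⟨r, hr, rfl⟩ := hf
    obtain ⟨s, hs, rfl⟩ := hg
    refine ⟨fun i => r i + s i, fun i => ih (hr i) (hs i), ?_⟩
    rw [← Finset.sum_add_distrib]
    exact Finset.sum_congr rfl fun i _ => by ring

theorem NN_up {y : ℕ → L} {i : ℕ} {f : L} (hf : NN k q x y i f) {s : ℕ} (hs : s < q) :
    NN k q x y (i + 1) (y (i + 1) ^ s * f) := by
  refine ⟨fun t => if t = s then f else 0, fun t => ?_, ?_⟩
  · dsimp only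
    split_ifs
    · exact hf
    · exact NN_zero_mem y i
  · simp [hs]

/-- Principal parts. -/
def PQ (k : Type*) {L : Type*} [Field k] [Field L] [Algebra k L] (q : ℕ) (x : ℕ → L) (i : ℕ) :
    Submodule k L :=
  Submodule.span k {f | ∃ j n, n < q ^ i ∧ f = (x 0)⁻¹ ^ (j + 1) * mon q x i n}

theorem PQ_up (hq : 2 ≤ q) {i : ℕ} {f : L} (hf : f ∈ PQ k q x i) {s : ℕ} (hs : s < q) :
    x (i + 1) ^ s * f ∈ PQ k q x (i + 1) := by
  induction hf using Submodule.span_induction with
  | mem y hy =>
    obtain ⟨j, n, hn, rfl⟩ := hy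
    apply Submodule.subset_span
    refine ⟨j, q * n + s, ?_, ?_⟩
    · calc q * n + s < q * n + q := by omega
        _ = q * (n + 1) := by ring
        _ ≤ q * q ^ i := Nat.mul_le_mul_left _ hn
        _ = q ^ (i + 1) := by ring
    · rw [mon_comb hq i n s hs]; ring
  | zero => rw [mul_zero]; exact Submodule.zero_mem _
  | add y z _ _ hy hz => rw [mul_add]; exact Submodule.add_mem _ hy hz
  | smul c y _ hy => rw [mul_smul_comm]; exact Submodule.smul_mem _ _ hy

theorem mon_mem_KK (i n : ℕ) : mon q x i n ∈ KK k x i := by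
  induction i generalizing n with
  | zero => rw [mon_zero]; exact pow_mem (x_mem_KK 0) _
  | succ i ih =>
    rw [mon_succ]
    exact mul_mem (pow_mem (x_mem_KK _) _) (KK_mono_succ i (ih _))

theorem PQ_le_KK (i : ℕ) {f : L} (hf : f ∈ PQ k q x i) : f ∈ KK k x i := by
  induction hf using Submodule.span_induction with
  | mem y hy =>
    obtain ⟨j, n, hn, rfl⟩ := hy
    exact mul_mem (pow_mem (inv_mem (x_mem_KK' (Nat.zero_le i))) _) (mon_mem_KK i n)
  | zero => exact zero_mem _
  | add y z _ _ hy hz => exact add_mem hy hz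
  | smul c y _ hy => exact (KK k x i).smul_mem hy

/-- Base case of the approximation. -/
theorem approx_zero (y : ℕ → L) (h0 : x 0 ≠ 0)
    (htr : ∀ s : Polynomial k, s ≠ 0 → Polynomial.aeval (x 0) s ≠ 0) {g : L}
    (hg : g ∈ KK k x 0) : ∃ p ∈ PQ k q x 0, NN k q x y 0 (g + p) := by
  have key : ∀ n : ℕ, ∀ r s : Polynomial k, s.coeff 0 ≠ 0 →
      ∃ p ∈ PQ k q x 0, NN k q x y 0
        (Polynomial.aeval (x 0) r / (x 0 ^ n * Polynomial.aeval (x 0) s) + p) := by
    intro n
    induction n with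
    | zero =>
      intro r s hs
      refine ⟨0, Submodule.zero_mem _, r, s, hs, ?_, by simp⟩
      apply htr
      rintro rfl
      simp at hs
    | succ n ih =>
      intro r s hs
      have hs0 : Polynomial.aeval (x 0) s ≠ 0 := by
        apply htr
        rintro rfl
        simp at hs
      set c : k := r.coeff 0 / s.coeff 0 with hc
      have hdvd : Polynomial.X ∣ (r - Polynomial.C c * s) := by
        rw [Polynomial.X_dvd_iff, Polynomial.coeff_sub, Polynomial.coeff_C_mul, hc,
          div_mul_cancel₀ _ hs, sub_self]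
      obtain ⟨r', hr'⟩ := hdvd
      obtain ⟨p, hp, hN⟩ := ih r' s hs
      refine ⟨p - c • ((x 0)⁻¹ ^ (n + 1) * mon q x 0 0), ?_, ?_⟩
      · apply Submodule.sub_mem _ hp
        apply Submodule.smul_mem
        exact Submodule.subset_span ⟨n, 0, by simp, rfl⟩
      · have e : Polynomial.aeval (x 0) r =
            x 0 * Polynomial.aeval (x 0) r' + algebraMap k L c * Polynomial.aeval (x 0) s := by
          have := congrArg (Polynomial.aeval (x 0)) hr'
          simp only [map_sub, map_mul, Polynomial.aeval_C, Polynomial.aeval_X] at this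
          linear_combination this
        have e2 : Polynomial.aeval (x 0) r / (x 0 ^ (n + 1) * Polynomial.aeval (x 0) s) +
            (p - c • ((x 0)⁻¹ ^ (n + 1) * mon q x 0 0)) =
            Polynomial.aeval (x 0) r' / (x 0 ^ n * Polynomial.aeval (x 0) s) + p := by
          rw [e, Algebra.smul_def, mon_zero, pow_zero, mul_one, inv_pow]
          field_simp
          ring
        rw [e2]
        exact hN
  rw [KK] at hg
  rw [IntermediateField.mem_adjoin_simple_iff] at hg
  obtain ⟨r, s, rfl⟩ := hg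
  by_cases hs : s = 0
  · subst hs
    refine ⟨0, Submodule.zero_mem _, ?_⟩
    simpa using NN_zero_mem y 0
  · obtain ⟨s', hs', hdvd⟩ := s.exists_eq_pow_rootMultiplicity_mul_and_not_dvd hs 0
    rw [map_zero, sub_zero] at hs' hdvd
    have hc : s'.coeff 0 ≠ 0 := fun h => hdvd (Polynomial.X_dvd_iff.mpr h)
    rw [hs', map_mul, map_pow, Polynomial.aeval_X]
    exact key _ r s' hc

theorem DD_pow_sub {i : ℕ} {γ : L} (hγ : γ ∈ KK k x i) (d : ℕ) {c : L} (hc : c ∈ KK k x i) :
    DD k x i d (((x (i + 1) + γ) ^ d - x (i + 1) ^ d) * c) := by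
  rw [add_pow]
  rw [Finset.sum_range_succ]
  simp only [Nat.sub_self, pow_zero, mul_one, Nat.choose_self, Nat.cast_one, add_sub_cancel_right]
  refine ⟨fun s => γ ^ (d - s) * (d.choose s : L) * c, fun s => ?_, ?_⟩
  · exact mul_mem (mul_mem (pow_mem hγ _) (natCast_mem _ _)) hc
  · rw [Finset.sum_mul]
    exact Finset.sum_congr rfl fun s _ => by ring

theorem DD_neg {i d : ℕ} {f : L} (hf : DD k x i d f) : DD k x i d (-f) := by
  obtain ⟨r, hr, rfl⟩ := hf
  refine ⟨fun s => - r s, fun s => neg_mem (hr s), ?_⟩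
  rw [← Finset.sum_neg_distrib]
  exact Finset.sum_congr rfl fun s _ => by ring

/-- **The approximation.** -/
theorem approx (hq : 2 ≤ q) (hr : Rel q m x) (hn : Ndg q m x) (y : ℕ → L)
    (hy : ∀ i, i + 1 < m → y (i + 1) - x (i + 1) ∈ KK k x i)
    (htr : ∀ s : Polynomial k, s ≠ 0 → Polynomial.aeval (x 0) s ≠ 0) :
    ∀ i < m, ∀ g ∈ KK k x i, ∃ p ∈ PQ k q x i, NN k q x y i (g + p) := by
  intro i
  induction i with
  | zero => intro hi g hg; exact approx_zero y (hn 0 hi).1 htr hg
  | succ i ih =>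
    intro hi g hg
    have key : ∀ d ≤ q, ∀ g, DD k x i d g → ∃ p ∈ PQ k q x (i + 1), NN k q x y (i + 1) (g + p) := by
      intro d
      induction d with
      | zero =>
        intro _ g hg
        obtain ⟨r, hr', rfl⟩ := hg
        exact ⟨0, Submodule.zero_mem _, by simpa using NN_zero_mem y (i + 1)⟩
      | succ d ihd =>
        intro hd g hg
        obtain ⟨r, hr', rfl⟩ := hg
        obtain ⟨p, hp, hN⟩ := ih (by omega) (r d) (hr' d)
        have hγ := hy i hi
        set γ := y (i + 1) - x (i + 1) with hγdef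
        have hyx : y (i + 1) = x (i + 1) + γ := by rw [hγdef]; ring
        have hpK : r d + p ∈ KK k x i := add_mem (hr' d) (PQ_le_KK i hp)
        have h1 : DD k x i d (∑ s ∈ Finset.range d, x (i + 1) ^ s * r s +
            -(((x (i + 1) + γ) ^ d - x (i + 1) ^ d) * (r d + p))) :=
          DD_add ⟨r, hr', rfl⟩ (DD_neg (DD_pow_sub hγ d hpK))
        obtain ⟨p', hp', hN'⟩ := ihd (by omega) _ h1
        refine ⟨x (i + 1) ^ d * p + p', Submodule.add_mem _ (PQ_up hq hp (by omega)) hp', ?_⟩
        have e : ∑ s ∈ Finset.range (d + 1), x (i + 1) ^ s * r s + (x (i + 1) ^ d * p + p') =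
            y (i + 1) ^ d * (r d + p) + (∑ s ∈ Finset.range d, x (i + 1) ^ s * r s +
            -(((x (i + 1) + γ) ^ d - x (i + 1) ^ d) * (r d + p)) + p') := by
          rw [Finset.sum_range_succ, hyx]
          ring
        rw [e]
        exact NN_add (NN_up hN (by omega)) hN'
    exact key q le_rfl g (KK_succ_dec hq hr hn hi hg)

theorem yy_sub_mem (hq : 2 ≤ q) (M i : ℕ) : yy q M x (i + 1) - x (i + 1) ∈ KK k x i := by
  rw [yy, add_sub_cancel_left]
  apply sum_mem
  intro s hs
  rw [Finset.mem_filter, Finset.mem_range] at hs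
  have hx1 : x (s - 1) ∈ KK k x i := x_mem_KK' (by omega)
  have hx2 : x s ∈ KK k x i := x_mem_KK' (by omega)
  have hx3 : x (2 * s - (i + 1)) ∈ KK k x i := x_mem_KK' (by omega)
  rw [term, rho]
  exact mul_mem (mul_mem (div_mem (pow_mem (add_mem (pow_mem hx1 _) (one_mem _)) _)
    (add_mem (pow_mem (add_mem (pow_mem hx1 _) (one_mem _)) _) (pow_mem hx1 _)))
    (pow_mem hx2 _)) (inv_mem hx3)

/-- The functions: for every `n` there is a principal part making `mon n` regular at `x 0 = 0`. -/
theorem exists_fn (hq : 2 ≤ q) (hr : Rel q m x) (hn : Ndg q m x) (hm : 1 ≤ m) (M : ℕ)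
    (htr : ∀ s : Polynomial k, s ≠ 0 → Polynomial.aeval (x 0) s ≠ 0) (n : ℕ) :
    ∃ p ∈ PQ k q x (m - 1), NN k q x (yy q M x) (m - 1) (mon q x (m - 1) n + p) :=
  approx hq hr hn (yy q M x) (fun i _ => yy_sub_mem hq M i) htr (m - 1) (by omega) _
    (mon_mem_KK (m - 1) n)

section value

variable {Γ : Type*} [LinearOrderedCommGroupWithZero Γ] (w : Valuation L Γ)

theorem w_aeval_le (hk : ∀ c : k, w (algebraMap k L c) ≤ 1) {z : L} (hz : w z ≤ 1)
    (r : Polynomial k) : w (Polynomial.aeval z r) ≤ 1 := by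
  rw [Polynomial.aeval_eq_sum_range]
  apply Valuation.map_sum_le
  intro i _
  rw [Algebra.smul_def, map_mul, map_pow]
  exact mul_le_one' (hk _) (pow_le_one₀ zero_le hz)

theorem w_const' (hk : ∀ c : k, w (algebraMap k L c) ≤ 1) {c : k} (hc : c ≠ 0) :
    w (algebraMap k L c) = 1 := by
  apply le_antisymm (hk c)
  have h1 := hk c⁻¹
  rw [map_inv₀, map_inv₀] at h1
  have h0 : w (algebraMap k L c) ≠ 0 := by
    rw [Valuation.ne_zero_iff]
    exact (map_ne_zero _).mpr hc
  exact (inv_le_one₀ (zero_lt_iff.mpr h0)).mp h1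

theorem w_aeval_unit (hk : ∀ c : k, w (algebraMap k L c) ≤ 1) {z : L} (hz : w z < 1)
    {s : Polynomial k} (hs : s.coeff 0 ≠ 0) : w (Polynomial.aeval z s) = 1 := by
  have e : s = Polynomial.X * s.divX + Polynomial.C (s.coeff 0) := (Polynomial.X_mul_divX_add s).symm
  rw [e, map_add, map_mul, Polynomial.aeval_X, Polynomial.aeval_C]
  rw [Valuation.map_add_eq_of_lt_right, w_const' w hk hs]
  rw [w_const' w hk hs, map_mul]
  calc w z * w (Polynomial.aeval z s.divX) ≤ w z * 1 :=
        mul_le_mul' le_rfl (w_aeval_le w hk hz.le _)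
    _ = w z := mul_one _
    _ < 1 := hz

/-- elements of the lattice are bounded by `1/x 0`. -/
theorem NN_bound (hq : 2 ≤ q) (hm : 1 ≤ m) (hk : ∀ c : k, w (algebraMap k L c) ≤ 1)
    (hx0 : w (x 0) < 1) (y : ℕ → L)
    (hloc : ∀ e : ℕ → ℕ, (∀ i, e i < q) → w (x 0 * ∏ l ∈ Finset.Ico 1 m, y l ^ e l) ≤ 1) :
    ∀ i < m, ∀ f, NN k q x y i f → ∀ e : ℕ → ℕ, (∀ i, e i < q) →
      w (x 0 * f * ∏ l ∈ Finset.Ico (i + 1) m, y l ^ e l) ≤ 1 := by
  intro i
  induction i with
  | zero =>
    intro hi f hf e he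
    obtain ⟨r, s, hs, hs0, rfl⟩ := hf
    have h1 : w (Polynomial.aeval (x 0) r / Polynomial.aeval (x 0) s) ≤ 1 := by
      rw [map_div₀, w_aeval_unit w hk hx0 hs, div_one]
      exact w_aeval_le w hk hx0.le r
    have h2 : x 0 * (Polynomial.aeval (x 0) r / Polynomial.aeval (x 0) s) *
        ∏ l ∈ Finset.Ico (0 + 1) m, y l ^ e l =
        (Polynomial.aeval (x 0) r / Polynomial.aeval (x 0) s) *
        (x 0 * ∏ l ∈ Finset.Ico 1 m, y l ^ e l) := by
      rw [zero_add]; ring
    rw [h2, map_mul]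
    exact mul_le_one' h1 (hloc e he)
  | succ i ih =>
    intro hi f hf e he
    obtain ⟨r, hr, rfl⟩ := hf
    rw [Finset.mul_sum, Finset.sum_mul]
    apply Valuation.map_sum_le
    intro s hs
    rw [Finset.mem_range] at hs
    have h1 := ih (by omega) (r s) (hr s) (Function.update e (i + 1) s) (by
      intro j
      by_cases hj : j = i + 1
      · subst hj; simpa using hs
      · rw [Function.update_of_ne hj]; exact he j)
    have h2 : ∏ l ∈ Finset.Ico (i + 1) m, y l ^ Function.update e (i + 1) s l =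
        y (i + 1) ^ s * ∏ l ∈ Finset.Ico (i + 1 + 1) m, y l ^ e l := by
      rw [← Finset.prod_Ico_consecutive _ (show i + 1 ≤ i + 1 + 1 by omega) (by omega)]
      congr 1
      · simp
      · apply Finset.prod_congr rfl
        intro l hl
        rw [Finset.mem_Ico] at hl
        rw [Function.update_of_ne (by omega)]
    rw [h2] at h1
    refine le_trans (le_of_eq ?_) h1
    congr 1
    ring

theorem mon_eq_prod (hq : 2 ≤ q) (i n : ℕ) : ∃ (j : ℕ) (e : ℕ → ℕ), (∀ l, e l < q) ∧
    mon q x i n = x 0 ^ j * ∏ l ∈ Finset.Ico 1 (i + 1), x l ^ e l := by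
  induction i generalizing n with
  | zero => exact ⟨n, fun _ => 0, fun _ => show 0 < q by omega, by simp⟩
  | succ i ih =>
    obtain ⟨j, e, he, h⟩ := ih (n / q)
    refine ⟨j, Function.update e (i + 1) (n % q), ?_, ?_⟩
    · intro l
      by_cases hl : l = i + 1
      · subst hl; simpa using Nat.mod_lt n (by omega)
      · rw [Function.update_of_ne hl]; exact he l
    · rw [mon_succ, h, Finset.prod_Ico_succ_top (by omega : 1 ≤ i + 1)]
      have : ∏ l ∈ Finset.Ico 1 (i + 1), x l ^ Function.update e (i + 1) (n % q) l =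
          ∏ l ∈ Finset.Ico 1 (i + 1), x l ^ e l := by
        apply Finset.prod_congr rfl
        intro l hl
        rw [Finset.mem_Ico] at hl
        rw [Function.update_of_ne (by omega)]
      rw [this]
      simp only [Function.update_self]
      ring

/-- The valuation bound at every place. -/
theorem w_fn_le (hq : 2 ≤ q) (ha : AddPow L q) (hr : Rel q m x) (hn : Ndg q m x) (hm : 1 ≤ m)
    (hR : HasRes q w) (hk : ∀ c : k, w (algebraMap k L c) ≤ 1) (hx0 : w (x 0) ≤ 1)
    (n : ℕ) {p : L} (hp : p ∈ PQ k q x (m - 1))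
    (hN : NN k q x (yy q (q ^ m + 2) x) (m - 1) (mon q x (m - 1) n + p)) :
    w (AA q (x 0) * (mon q x (m - 1) n + p)) ≤ 1 := by
  have hAle : w (x 0 ^ q + x 0) ≤ 1 := by
    apply Valuation.map_add_le
    · rw [map_pow]; exact pow_le_one₀ zero_le hx0
    · exact hx0
  rcases lt_or_eq_of_le hx0 with hlt | heq
  · -- the place x 0 = 0
    have h1 := NN_bound w hq hm hk hlt (yy q (q ^ m + 2) x)
      (fun e he => local_zero w hq ha hr hn hR hlt hm e he) (m - 1) (by omega) _ hN
      (fun _ => 0) (fun _ => show 0 < q by omega)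
    rw [show m - 1 + 1 = m by omega, Finset.Ico_self, Finset.prod_empty, mul_one] at h1
    have h2 : AA q (x 0) * (mon q x (m - 1) n + p) =
        (x 0 ^ (q - 1) + 1) * (x 0 * (mon q x (m - 1) n + p)) := by
      rw [AA, AS_eq hq]; ring
    rw [h2, map_mul, w_pow_add_one_of_lt w hq hlt, one_mul]
    exact h1
  · -- `x 0` is a unit: both parts separately
    have hmon : ∀ j : ℕ, ∀ n, w (AA q (x 0) * ((x 0)⁻¹ ^ j * mon q x (m - 1) n)) ≤ 1 := by
      intro j n
      obtain ⟨j', e, he, h⟩ := mon_eq_prod (x := x) hq (m - 1) n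
      rw [show m - 1 + 1 = m by omega] at h
      have h3 : AA q (x 0) * ((x 0)⁻¹ ^ j * mon q x (m - 1) n) =
          ((x 0)⁻¹ ^ j * x 0 ^ j') * (AA q (x 0) * ∏ l ∈ Finset.Ico 1 m, x l ^ e l) := by
        rw [h]; ring
      have h4 : w ((x 0)⁻¹ ^ j * x 0 ^ j') = 1 := by
        rw [map_mul, map_pow, map_pow, map_inv₀, heq]; simp
      rw [h3, map_mul, h4, one_mul]
      rcases lt_or_eq_of_le hAle with h5 | h5
      · exact local_omega w hq hr hn heq h5 hm e he
      · rw [AA, map_mul, h5, one_mul, map_prod]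
        apply Finset.prod_le_one'
        intro l hl
        rw [Finset.mem_Ico] at hl
        rw [map_pow]
        exact pow_le_one₀ zero_le (local_unit w hq hr hx0 h5 l hl.2)
    have hpb : w (AA q (x 0) * p) ≤ 1 := by
      clear hN
      induction hp using Submodule.span_induction with
      | mem y hy =>
        obtain ⟨j, n, _, rfl⟩ := hy
        exact hmon (j + 1) n
      | zero => simp
      | add y z _ _ hy hz => rw [mul_add]; exact Valuation.map_add_le _ hy hz
      | smul c y _ hy =>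
        rw [mul_smul_comm, Algebra.smul_def, map_mul]
        exact mul_le_one' (hk c) hy
    rw [mul_add]
    apply Valuation.map_add_le _ _ hpb
    have := hmon 0 n
    simpa using this

end value

/-- **Integrality.** -/
theorem fn_integral (hq : 2 ≤ q) (ha : AddPow L q) (hr : Rel q m x) (hn : Ndg q m x) (hm : 1 ≤ m)
    (hR : ∀ V : ValuationSubring L, HasRes q V.valuation)
    (n : ℕ) {p : L} (hp : p ∈ PQ k q x (m - 1))
    (hN : NN k q x (yy q (q ^ m + 2) x) (m - 1) (mon q x (m - 1) n + p)) :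
    IsIntegral (Subring.closure (Set.range (algebraMap k L) ∪ {x 0}))
      (AA q (x 0) * (mon q x (m - 1) n + p)) := by
  have h := iInf_valuationSubring_superset (K := L) (s := Set.range (algebraMap k L) ∪ {x 0})
  have h1 : AA q (x 0) * (mon q x (m - 1) n + p) ∈
      (integralClosure (Subring.closure (Set.range (algebraMap k L) ∪ {x 0})) L).toSubring := by
    rw [← h]
    rw [Subring.mem_iInf]
    rintro ⟨V, hV⟩
    have hk : ∀ c : k, V.valuation (algebraMap k L c) ≤ 1 := by
      intro c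
      rw [V.valuation_le_one_iff]
      exact hV (Or.inl ⟨c, rfl⟩)
    have hx0 : V.valuation (x 0) ≤ 1 := by
      rw [V.valuation_le_one_iff]
      exact hV (Or.inr rfl)
    have := w_fn_le V.valuation hq ha hr hn hm (hR V) hk hx0 n hp hN
    rw [V.valuation_le_one_iff] at this
    exact this
  exact h1

end Vale.Agent.P318.AG
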