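import Vale.Agent.P318.AG.Code
import Vale.Agent.P318.H321.Code

/-! Codes with good squares: the final statement in column form. -/

namespace Vale.Agent.P318.AG

/-- **Good-square vectors over a constant field of characteristic 2.** For a field with `q^2`
elements, `q = 2^a ≥ 8`, and every `K ≥ 1`, there are `n ≤ (q-1) q^2 K` vectors in `k^K`, the unit
vectors among them, such that every quadratic form not vanishing on all of them vanishes on at
most `5 n / (q-1)` of them. -/
theorem exists_good {k : Type*} [Field k] [Fintype k] [CharP k 2] {a q : ℕ} (ha : 3 ≤ a)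
    (hq : q = 2 ^ a) (hK : Fintype.card k = q ^ 2) (K : ℕ) (hK1 : 1 ≤ K) :
    ∃ n ≤ (q - 1) * q * q * K, ∃ b : Fin n → Fin K → k, H321.Good (5 / ((q : ℝ) - 1)) b := by
  have hq8 : 8 ≤ q := by
    rw [hq]
    calc 8 = 2 ^ 3 := by norm_num
      _ ≤ 2 ^ a := Nat.pow_le_pow_right (by norm_num) ha
  refine H321.exists_good_all (Q := q) (c := (q - 1) * q) (by omega) ?_ K hK1
  intro m
  obtain ⟨C, hC1, hC2⟩ := exists_code (k := k) (a := a) (q := q) (by omega) hq hK (m + 1)
    (by omega) hq8
  refine ⟨(q - 1) * q ^ (m + 1), C, ?_, ?_, ?_⟩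
  · rw [pow_succ]; exact le_of_eq (by ring)
  · refine le_trans ?_ (le_trans (Nat.le_succ _) hC1)
    exact Nat.pow_le_pow_right (by omega) (by omega)
  · intro v hv hv0
    have h := hC2 v hv hv0
    have h1 : (0 : ℝ) < (q : ℝ) - 1 := by
      have : (8 : ℝ) ≤ q := by exact_mod_cast hq8
      linarith
    have h2 : (((q - 1) * q ^ (m + 1) : ℕ) : ℝ) = ((q : ℝ) - 1) * (q : ℝ) ^ (m + 1) := by
      rw [Nat.cast_mul, Nat.cast_sub (by omega), Nat.cast_pow]
      simp
    rw [h2]
    have h3 : 5 / ((q : ℝ) - 1) * (((q : ℝ) - 1) * (q : ℝ) ^ (m + 1)) = 5 * (q : ℝ) ^ (m + 1) := by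
      field_simp
    rw [h3]
    exact_mod_cast h

end Vale.Agent.P318.AG
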