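import Vale.Agent.P318.AG.Val

/-! Codes with good squares, part 3: monomials and the coordinate ring of the chain. -/

set_option linter.unusedSectionVars false
set_option linter.unusedVariables false

namespace Vale.Agent.P318.AG

section ring

variable {k T : Type*} [Field k] [CommRing T] [Algebra k T]
variable {q m : ℕ} {ξ : ℕ → T}

/-- `mon q ξ i n`: the monomial in `ξ 0, …, ξ i` with pole order `n`. -/
def mon (q : ℕ) {T : Type*} [CommRing T] (ξ : ℕ → T) : ℕ → ℕ → T
  | 0, n => ξ 0 ^ n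
  | i + 1, n => ξ (i + 1) ^ (n % q) * mon q ξ i (n / q)

@[simp] theorem mon_zero (n : ℕ) : mon q ξ 0 n = ξ 0 ^ n := rfl

theorem mon_succ (i n : ℕ) : mon q ξ (i + 1) n = ξ (i + 1) ^ (n % q) * mon q ξ i (n / q) := rfl

theorem mon_comb (hq : 2 ≤ q) (i n s : ℕ) (hs : s < q) :
    mon q ξ (i + 1) (q * n + s) = ξ (i + 1) ^ s * mon q ξ i n := by
  rw [mon_succ]
  congr 2
  · rw [Nat.mul_add_mod, Nat.mod_eq_of_lt hs]
  · rw [Nat.mul_add_div (by omega), Nat.div_eq_of_lt hs, add_zero]

theorem mon_shift (hq : 2 ≤ q) (i n : ℕ) : ξ 0 * mon q ξ i n = mon q ξ i (n + q ^ i) := by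
  induction i generalizing n with
  | zero => simp [pow_succ']
  | succ i ih =>
    rw [mon_succ, mon_succ]
    have e1 : (n + q ^ (i + 1)) % q = n % q := by
      rw [pow_succ]; simp
    have e2 : (n + q ^ (i + 1)) / q = n / q + q ^ i := by
      rw [pow_succ, Nat.add_mul_div_right _ _ (by omega)]
    rw [e1, e2, ← ih]
    ring

theorem mon_map {T' : Type*} [CommRing T'] (φ : T →+* T') (i n : ℕ) :
    φ (mon q ξ i n) = mon q (fun j => φ (ξ j)) i n := by
  induction i generalizing n with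
  | zero => simp
  | succ i ih => rw [mon_succ, mon_succ, map_mul, map_pow, ih]

/-- The span of the monomials. -/
def MM (k : Type*) {T : Type*} [Field k] [CommRing T] [Algebra k T] (q : ℕ) (ξ : ℕ → T) (i : ℕ) :
    Submodule k T := Submodule.span k (Set.range (mon q ξ i))

theorem mon_mem (i n : ℕ) : mon q ξ i n ∈ MM k q ξ i := Submodule.subset_span ⟨n, rfl⟩

theorem one_mem_MM (hq : 2 ≤ q) (i : ℕ) : (1 : T) ∈ MM k q ξ i := by
  have : (1 : T) = mon q ξ i 0 := by
    induction i with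
    | zero => simp
    | succ i ih => rw [mon_succ]; simpa using ih
  rw [this]; exact mon_mem i 0

theorem xi0_mul_mem (hq : 2 ≤ q) {i : ℕ} {f : T} (hf : f ∈ MM k q ξ i) :
    ξ 0 * f ∈ MM k q ξ i := by
  induction hf using Submodule.span_induction with
  | mem x hx => obtain ⟨n, rfl⟩ := hx; rw [mon_shift hq]; exact mon_mem _ _
  | zero => rw [mul_zero]; exact Submodule.zero_mem _
  | add x y _ _ hx hy => rw [mul_add]; exact Submodule.add_mem _ hx hy
  | smul c x _ hx => rw [mul_smul_comm]; exact Submodule.smul_mem _ _ hx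

theorem xi0_pow_mul_mem (hq : 2 ≤ q) {i : ℕ} {f : T} (hf : f ∈ MM k q ξ i) (c : ℕ) :
    ξ 0 ^ c * f ∈ MM k q ξ i := by
  induction c with
  | zero => simpa using hf
  | succ c ih => rw [pow_succ', mul_assoc]; exact xi0_mul_mem hq ih

/-- The element `A(ξ 0)`. -/
def AA (q : ℕ) {T : Type*} [CommRing T] (z : T) : T := z ^ q + z

theorem AA_mul_mem (hq : 2 ≤ q) {i : ℕ} {f : T} (hf : f ∈ MM k q ξ i) :
    AA q (ξ 0) * f ∈ MM k q ξ i := by
  rw [AA, add_mul]
  exact Submodule.add_mem _ (xi0_pow_mul_mem hq hf q) (xi0_mul_mem hq hf)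

theorem AA_pow_mul_mem (hq : 2 ≤ q) {i : ℕ} {f : T} (hf : f ∈ MM k q ξ i) (c : ℕ) :
    AA q (ξ 0) ^ c * f ∈ MM k q ξ i := by
  induction c with
  | zero => simpa using hf
  | succ c ih => rw [pow_succ', mul_assoc]; exact AA_mul_mem hq ih

theorem AA_pow_mono (hq : 2 ≤ q) {i : ℕ} {f : T} {c d : ℕ} (h : c ≤ d)
    (hf : AA q (ξ 0) ^ c * f ∈ MM k q ξ i) : AA q (ξ 0) ^ d * f ∈ MM k q ξ i := by
  obtain ⟨e, rfl⟩ := Nat.exists_eq_add_of_le h
  rw [add_comm, pow_add, mul_assoc]
  exact AA_pow_mul_mem hq hf e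

theorem up_mem (hq : 2 ≤ q) {i : ℕ} {f : T} (hf : f ∈ MM k q ξ i) {s : ℕ} (hs : s < q) :
    ξ (i + 1) ^ s * f ∈ MM k q ξ (i + 1) := by
  induction hf using Submodule.span_induction with
  | mem x hx => obtain ⟨n, rfl⟩ := hx; rw [← mon_comb hq i n s hs]; exact mon_mem _ _
  | zero => rw [mul_zero]; exact Submodule.zero_mem _
  | add x y _ _ hx hy => rw [mul_add]; exact Submodule.add_mem _ hx hy
  | smul c x _ hx => rw [mul_smul_comm]; exact Submodule.smul_mem _ _ hx

/-- The coordinate rings. -/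
def RR (k : Type*) {T : Type*} [Field k] [CommRing T] [Algebra k T] (ξ : ℕ → T) (a : T) :
    ℕ → Subalgebra k T
  | 0 => Algebra.adjoin k {ξ 0, a}
  | i + 1 => RR k ξ a i ⊔ Algebra.adjoin k {ξ (i + 1)}

theorem RR_mono_succ {a : T} (i : ℕ) : RR k ξ a i ≤ RR k ξ a (i + 1) := le_sup_left

theorem RR_mono {a : T} {i j : ℕ} (h : i ≤ j) : RR k ξ a i ≤ RR k ξ a j := by
  induction j, h using Nat.le_induction with
  | base => exact le_rfl
  | succ j _ ih => exact ih.trans (RR_mono_succ j)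

theorem xi_mem_RR {a : T} (i : ℕ) : ξ i ∈ RR k ξ a i := by
  cases i with
  | zero => exact Algebra.subset_adjoin (by simp)
  | succ i =>
    exact (le_sup_right : Algebra.adjoin k {ξ (i + 1)} ≤ RR k ξ a (i + 1))
      (Algebra.subset_adjoin (by simp))

theorem a_mem_RR {a : T} (i : ℕ) : a ∈ RR k ξ a i :=
  RR_mono (Nat.zero_le i) (Algebra.subset_adjoin (by simp))

/-- inverses of `A(ξ i)` -/
theorem exists_inv (hq : 2 ≤ q) (hr : Rel q m ξ) {a : T} (ha : AA q (ξ 0) * a = 1)
    {i : ℕ} (hi : i < m) : ∃ b ∈ RR k ξ a i, AA q (ξ i) * b = 1 := by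
  induction i with
  | zero => exact ⟨a, a_mem_RR 0, ha⟩
  | succ i ih =>
    obtain ⟨b, hb, hb1⟩ := ih (by omega)
    refine ⟨(ξ i ^ (q - 1) + 1) ^ (q + 1) * b ^ q, ?_, ?_⟩
    · apply RR_mono_succ
      exact mul_mem (pow_mem (add_mem (pow_mem (xi_mem_RR i) _) (one_mem _)) _) (pow_mem hb _)
    · have h1 := hr i hi
      have h2 : AA q (ξ i) = ξ i * (ξ i ^ (q - 1) + 1) := by
        rw [AA, mul_add, mul_one, ← pow_succ']
        congr 2
        omega
      calc AA q (ξ (i + 1)) * ((ξ i ^ (q - 1) + 1) ^ (q + 1) * b ^ q)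
          = ((ξ (i + 1) ^ q + ξ (i + 1)) * (ξ i ^ (q - 1) + 1)) * (ξ i ^ (q - 1) + 1) ^ q * b ^ q := by
            rw [AA]; ring
        _ = (ξ i * (ξ i ^ (q - 1) + 1) * b) ^ q := by rw [h1, mul_pow, mul_pow]
        _ = 1 := by rw [← h2, hb1, one_pow]

theorem AA_succ (hq : 2 ≤ q) (hr : Rel q m ξ) {i : ℕ} (hi : i + 1 < m) {b : T}
    (hb : AA q (ξ i) * b = 1) : ξ (i + 1) ^ q + ξ (i + 1) = ξ i ^ (q + 1) * b := by
  have h1 := hr i hi
  have h2 : AA q (ξ i) = ξ i * (ξ i ^ (q - 1) + 1) := by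
    rw [AA, mul_add, mul_one, ← pow_succ']
    congr 2
    omega
  calc ξ (i + 1) ^ q + ξ (i + 1) = (ξ (i + 1) ^ q + ξ (i + 1)) * (AA q (ξ i) * b) := by
        rw [hb, mul_one]
    _ = ((ξ (i + 1) ^ q + ξ (i + 1)) * (ξ i ^ (q - 1) + 1)) * ξ i * b := by rw [h2]; ring
    _ = _ := by rw [h1]; ring

/-- Polynomials of degree `< q` in `y` with coefficients in `R`. -/
def PP (R : Subalgebra k T) (y : T) (q : ℕ) (f : T) : Prop :=
  ∃ r : ℕ → T, (∀ s, r s ∈ R) ∧ f = ∑ s ∈ Finset.range q, y ^ s * r s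

theorem PP.add {R : Subalgebra k T} {y f g : T} (hf : PP R y q f) (hg : PP R y q g) :
    PP R y q (f + g) := by
  obtain ⟨r, hr, rfl⟩ := hf
  obtain ⟨s, hs, rfl⟩ := hg
  refine ⟨fun i => r i + s i, fun i => add_mem (hr i) (hs i), ?_⟩
  rw [← Finset.sum_add_distrib]
  exact Finset.sum_congr rfl fun i _ => by ring

theorem PP.mulR {R : Subalgebra k T} {y f c : T} (hf : PP R y q f) (hc : c ∈ R) :
    PP R y q (f * c) := by
  obtain ⟨r, hr, rfl⟩ := hf
  refine ⟨fun i => r i * c, fun i => mul_mem (hr i) hc, ?_⟩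
  rw [Finset.sum_mul]
  exact Finset.sum_congr rfl fun i _ => by ring

theorem PP.ofR {R : Subalgebra k T} (hq : 2 ≤ q) {y c : T} (hc : c ∈ R) : PP R y q c := by
  refine ⟨fun i => if i = 0 then c else 0, fun i => ?_, ?_⟩
  · dsimp only
    split_ifs
    · exact hc
    · exact R.zero_mem
  · simp [Finset.sum_ite_eq', show 0 < q by omega]

theorem PP.muly {R : Subalgebra k T} (hq : 2 ≤ q) {y f : T} (hy : y ^ q + y ∈ R)
    (hf : PP R y q f) : PP R y q (f * y) := by
  obtain ⟨r, hr, rfl⟩ := hf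
  obtain ⟨n, rfl⟩ : ∃ n, q = n + 1 := ⟨q - 1, by omega⟩
  have e : (∑ s ∈ Finset.range (n + 1), y ^ s * r s) * y =
      (∑ s ∈ Finset.range n, y ^ (s + 1) * r s) + (y ^ (n + 1) + y) * r n - y * r n := by
    rw [Finset.sum_range_succ, add_mul, Finset.sum_mul, add_sub_assoc]
    congr 1
    · exact Finset.sum_congr rfl fun i _ => by ring
    · ring
  rw [e]
  refine ⟨fun i => if i = 0 then (y ^ (n + 1) + y) * r n
    else if i = 1 then r 0 - r n else r (i - 1), fun i => ?_, ?_⟩
  · dsimp only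
    split_ifs
    · exact mul_mem hy (hr n)
    · exact sub_mem (hr 0) (hr n)
    · exact hr _
  · have hn : 1 ≤ n := by omega
    obtain ⟨n', rfl⟩ : ∃ n', n = n' + 1 := ⟨n - 1, by omega⟩
    rw [Finset.sum_range_succ' _ (n' + 1), Finset.sum_range_succ' _ n', Finset.sum_range_succ' _ n']
    simp only [Nat.add_eq_zero_iff, one_ne_zero, and_false, if_false, if_true,
      pow_zero, one_mul, zero_add, pow_one, Nat.add_sub_cancel]
    have : ∀ x, (x + 1 + 1 = 1) = False := fun x => by simp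
    simp only [this, if_false]
    ring

theorem PP.mul {R : Subalgebra k T} (hq : 2 ≤ q) {y f g : T} (hy : y ^ q + y ∈ R)
    (hf : PP R y q f) (hg : PP R y q g) : PP R y q (f * g) := by
  obtain ⟨r, hr, rfl⟩ := hg
  rw [Finset.mul_sum]
  have hpow : ∀ s, PP R y q (f * y ^ s) := by
    intro s
    induction s with
    | zero => simpa using hf
    | succ s ih => rw [pow_succ, ← mul_assoc]; exact ih.muly hq hy
  have hsum : ∀ S : Finset ℕ, PP R y q (∑ s ∈ S, f * (y ^ s * r s)) := by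
    intro S
    induction S using Finset.induction_on with
    | empty => simpa using PP.ofR hq R.zero_mem
    | insert a S ha ih =>
      rw [Finset.sum_insert ha]
      apply PP.add _ ih
      rw [← mul_assoc]
      exact (hpow a).mulR (hr a)
  exact hsum _

/-- General reduction: if `y^q + y ∈ R`, every element of `R[y]` is a polynomial of degree `< q`. -/
theorem exists_sum_of_mem_sup (hq : 2 ≤ q) (R : Subalgebra k T) (y : T) (hy : y ^ q + y ∈ R)
    {f : T} (hf : f ∈ R ⊔ Algebra.adjoin k {y}) : PP R y q f := by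
  have h1 : R ⊔ Algebra.adjoin k {y} ≤ Algebra.adjoin k ((R : Set T) ∪ {y}) := by
    apply sup_le
    · intro x hx
      exact Algebra.subset_adjoin (Or.inl hx)
    · exact Algebra.adjoin_mono (Set.subset_union_right)
  have h2 := h1 hf
  clear h1 hf
  induction h2 using Algebra.adjoin_induction with
  | mem x hx =>
    rcases hx with hx | hx
    · exact PP.ofR hq hx
    · rw [Set.mem_singleton_iff] at hx
      subst hx
      have := (PP.ofR hq (y := x) R.one_mem).muly hq hy
      simpa using this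
  | algebraMap r => exact PP.ofR hq (R.algebraMap_mem r)
  | add x y _ _ hx hy => exact hx.add hy
  | mul x y _ _ hx hy' => exact hx.mul hq hy hy'

/-- **Reduction.** Every element of the coordinate ring is a combination of monomials divided by
a power of `A(ξ 0)`. -/
theorem red (hq : 2 ≤ q) (hr : Rel q m ξ) {a : T} (ha : AA q (ξ 0) * a = 1) :
    ∀ i < m, ∀ f ∈ RR k ξ a i, ∃ c : ℕ, AA q (ξ 0) ^ c * f ∈ MM k q ξ i := by
  intro i
  induction i with
  | zero =>
    intro _ f hf
    induction hf using Algebra.adjoin_induction with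
    | mem x hx =>
      rcases hx with rfl | hx
      · exact ⟨0, by simpa using mon_mem (k := k) (q := q) (ξ := ξ) 0 1⟩
      · rw [Set.mem_singleton_iff] at hx
        subst hx
        exact ⟨1, by rw [pow_one, ha]; exact one_mem_MM hq 0⟩
    | algebraMap r =>
      refine ⟨0, ?_⟩
      rw [pow_zero, one_mul, Algebra.algebraMap_eq_smul_one]
      exact Submodule.smul_mem _ _ (one_mem_MM hq 0)
    | add x y _ _ hx hy =>
      obtain ⟨c, hc⟩ := hx
      obtain ⟨d, hd⟩ := hy
      refine ⟨max c d, ?_⟩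
      rw [mul_add]
      exact Submodule.add_mem _ (AA_pow_mono hq (le_max_left c d) hc)
        (AA_pow_mono hq (le_max_right c d) hd)
    | mul x y _ _ hx hy =>
      obtain ⟨c, hc⟩ := hx
      obtain ⟨d, hd⟩ := hy
      refine ⟨c + d, ?_⟩
      have e : AA q (ξ 0) ^ (c + d) * (x * y) = (AA q (ξ 0) ^ c * x) * (AA q (ξ 0) ^ d * y) := by
        ring
      rw [e]
      -- multiplication by a polynomial in ξ 0
      generalize AA q (ξ 0) ^ c * x = u at hc
      generalize AA q (ξ 0) ^ d * y = v at hd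
      induction hc using Submodule.span_induction with
      | mem x hx =>
        obtain ⟨n, rfl⟩ := hx
        rw [mon_zero]; exact xi0_pow_mul_mem hq hd n
      | zero => rw [zero_mul]; exact Submodule.zero_mem _
      | add x y _ _ hx hy => rw [add_mul]; exact Submodule.add_mem _ hx hy
      | smul c x _ hx => rw [smul_mul_assoc]; exact Submodule.smul_mem _ _ hx
  | succ i ih =>
    intro hi f hf
    obtain ⟨b, hb, hb1⟩ := exists_inv (k := k) hq hr ha (i := i) (by omega)
    have hy : ξ (i + 1) ^ q + ξ (i + 1) ∈ RR k ξ a i := by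
      rw [AA_succ hq hr hi hb1]
      exact mul_mem (pow_mem (xi_mem_RR i) _) hb
    obtain ⟨r, hr', rfl⟩ := exists_sum_of_mem_sup hq (RR k ξ a i) (ξ (i + 1)) hy hf
    choose c hc using fun s => ih (by omega) (r s) (hr' s)
    refine ⟨∑ s ∈ Finset.range q, c s, ?_⟩
    rw [Finset.mul_sum]
    apply Submodule.sum_mem
    intro s hs
    rw [← mul_assoc, mul_comm _ (ξ (i + 1) ^ s), mul_assoc]
    apply up_mem hq _ (Finset.mem_range.mp hs)
    apply AA_pow_mono hq _ (hc s)
    exact Finset.single_le_sum (fun _ _ => Nat.zero_le _) hs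

end ring

end Vale.Agent.P318.AG
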