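import Vale.Agent.P318.AG.Mon

/-! Codes with good squares, part 4: values of the monomials at infinity. -/

set_option linter.unusedSectionVars false
set_option linter.unusedVariables false

namespace Vale.Agent.P318.AG

open WithZero

variable {k L : Type*} [Field k] [Field L] [Algebra k L]
variable {q m : ℕ} {x : ℕ → L} (v : Valuation L ℤᵐ⁰)

theorem v_mon (hq : 2 ≤ q) (hx : ∀ i < m, v (x i) = exp ((q : ℤ) ^ (m - 1 - i))) {i : ℕ}
    (hi : i < m) (n : ℕ) : v (mon q x i n) = exp ((n : ℤ) * (q : ℤ) ^ (m - 1 - i)) := by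
  induction i generalizing n with
  | zero =>
    rw [mon_zero, map_pow, hx 0 hi, ← exp_nsmul, nsmul_eq_mul]
  | succ i ih =>
    rw [mon_succ, map_mul, map_pow, hx _ hi, ih (by omega), ← exp_nsmul, nsmul_eq_mul,
      ← exp_add]
    congr 1
    have e1 : m - 1 - i = (m - 1 - (i + 1)) + 1 := by omega
    have e2 : (n : ℤ) = (q : ℤ) * ((n / q : ℕ) : ℤ) + ((n % q : ℕ) : ℤ) := by
      exact_mod_cast (Nat.div_add_mod n q).symm
    rw [e1, pow_succ]
    conv_rhs => rw [e2]
    ring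

theorem v_mon_top (hq : 2 ≤ q) (hm : 1 ≤ m)
    (hx : ∀ i < m, v (x i) = exp ((q : ℤ) ^ (m - 1 - i))) (n : ℕ) :
    v (mon q x (m - 1) n) = exp (n : ℤ) := by
  rw [v_mon v hq hx (by omega)]
  simp

theorem v_const (hk : ∀ c : k, v (algebraMap k L c) ≤ 1) {c : k} (hc : c ≠ 0) :
    v (algebraMap k L c) = 1 := by
  apply le_antisymm (hk c)
  have h1 := hk c⁻¹
  rw [map_inv₀, map_inv₀] at h1
  have h0 : v (algebraMap k L c) ≠ 0 := by
    rw [Valuation.ne_zero_iff]
    exact (map_ne_zero _).mpr hc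
  exact (inv_le_one₀ (zero_lt_iff.mpr h0)).mp h1

/-- The value of a nonzero combination of monomials is `exp` of the largest index. -/
theorem v_comb (hq : 2 ≤ q) (hm : 1 ≤ m)
    (hk : ∀ c : k, v (algebraMap k L c) ≤ 1)
    (hx : ∀ i < m, v (x i) = exp ((q : ℤ) ^ (m - 1 - i))) (l : ℕ →₀ k) (hl : l ≠ 0) :
    ∃ N ∈ l.support, (∀ n ∈ l.support, n ≤ N) ∧
      v (Finsupp.linearCombination k (mon q x (m - 1)) l) = exp (N : ℤ) := by
  have hs : l.support.Nonempty := Finsupp.support_nonempty_iff.mpr hl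
  refine ⟨l.support.max' hs, Finset.max'_mem _ _, fun n hn => Finset.le_max' _ _ hn, ?_⟩
  set N := l.support.max' hs with hN
  have hNm : N ∈ l.support := Finset.max'_mem _ _
  have hval : ∀ n ∈ l.support, v (l n • mon q x (m - 1) n) = exp (n : ℤ) := by
    intro n hn
    rw [Algebra.smul_def, map_mul, v_const v hk (Finsupp.mem_support_iff.mp hn), one_mul,
      v_mon_top v hq hm hx]
  rw [Finsupp.linearCombination_apply, Finsupp.sum, ← hval N hNm]
  apply Valuation.map_sum_eq_of_lt v hNm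
  intro n hn
  rw [Finset.mem_sdiff, Finset.mem_singleton] at hn
  rw [hval n hn.1, hval N hNm, exp_lt_exp]
  have h1 : n ≤ N := Finset.le_max' _ _ hn.1
  have h2 : n ≠ N := hn.2
  exact_mod_cast lt_of_le_of_ne h1 h2

theorem one_le_v_of_mem (hq : 2 ≤ q) (hm : 1 ≤ m)
    (hk : ∀ c : k, v (algebraMap k L c) ≤ 1)
    (hx : ∀ i < m, v (x i) = exp ((q : ℤ) ^ (m - 1 - i))) {g : L}
    (hg : g ∈ MM k q x (m - 1)) (hg0 : g ≠ 0) : 1 ≤ v g := by
  rw [MM, ← Set.image_univ, Finsupp.mem_span_image_iff_linearCombination] at hg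
  obtain ⟨l, -, rfl⟩ := hg
  have hl : l ≠ 0 := by
    rintro rfl
    simp at hg0
  obtain ⟨N, -, -, h⟩ := v_comb v hq hm hk hx l hl
  rw [h, ← exp_zero, exp_le_exp]
  exact_mod_cast Nat.zero_le N

theorem mon_linearIndependent (hq : 2 ≤ q) (hm : 1 ≤ m)
    (hk : ∀ c : k, v (algebraMap k L c) ≤ 1)
    (hx : ∀ i < m, v (x i) = exp ((q : ℤ) ^ (m - 1 - i))) :
    LinearIndependent k (mon q x (m - 1)) := by
  rw [linearIndependent_iff]
  intro l hl
  by_contra h
  obtain ⟨N, -, -, h1⟩ := v_comb v hq hm hk hx l h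
  rw [hl, map_zero] at h1
  exact exp_ne_zero h1.symm

end Vale.Agent.P318.AG
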