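import Vale.Agent.P318.AG.Mon

/-! Codes with good squares: functions separating the points, integral in the first coordinate. -/

namespace Vale.Agent.P318.AG

open Polynomial

section integral

variable {B L : Type*} [CommRing B] [Field L] [Algebra B L]

/-- A root of `Y ^ q + a Y = w` with integral `a`, `w` is integral. -/
theorem integral_root {q : ℕ} (hq : 2 ≤ q) {y a w : L} (ha : IsIntegral B a)
    (hw : IsIntegral B w) (h : y ^ q + a * y = w) : IsIntegral B y := by
  let R' := integralClosure B L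
  have h1 : IsIntegral R' y := by
    refine ⟨X ^ q + (C (⟨a, ha⟩ : R') * X - C (⟨w, hw⟩ : R')), ?_, ?_⟩
    · apply monic_X_pow_add
      refine lt_of_le_of_lt (degree_sub_le _ _) (max_lt ?_ ?_)
      · refine lt_of_le_of_lt (degree_C_mul_X_le _) ?_
        exact_mod_cast (by omega : 1 < q)
      · refine lt_of_le_of_lt degree_C_le ?_
        exact_mod_cast (by omega : 0 < q)
    · simp only [eval₂_add, eval₂_sub, eval₂_pow, eval₂_X, eval₂_mul, eval₂_C]
      change y ^ q + (a * y - w) = 0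
      rw [← h]; ring
  exact isIntegral_trans y h1

/-- `A ^ c * g` is integral for some `c`. -/
def II (B : Type*) {L : Type*} [CommRing B] [Field L] [Algebra B L] (A g : L) : Prop :=
  ∃ c : ℕ, IsIntegral B (A ^ c * g)

theorem II.of_integral {A g : L} (h : IsIntegral B g) : II B A g := ⟨0, by simpa using h⟩

theorem II.up {A g : L} (hA : IsIntegral B A) {c d : ℕ} (hcd : c ≤ d)
    (h : IsIntegral B (A ^ c * g)) : IsIntegral B (A ^ d * g) := by
  obtain ⟨e, rfl⟩ := Nat.exists_eq_add_of_le hcd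
  rw [add_comm, pow_add, mul_assoc]
  exact (hA.pow e).mul h

theorem II.mul {A g h : L} (hg : II B A g) (hh : II B A h) : II B A (g * h) := by
  obtain ⟨c, hc⟩ := hg
  obtain ⟨d, hd⟩ := hh
  refine ⟨c + d, ?_⟩
  have : A ^ (c + d) * (g * h) = (A ^ c * g) * (A ^ d * h) := by rw [pow_add]; ring
  rw [this]
  exact hc.mul hd

theorem II.add {A g h : L} (hA : IsIntegral B A) (hg : II B A g) (hh : II B A h) :
    II B A (g + h) := by
  obtain ⟨c, hc⟩ := hg
  obtain ⟨d, hd⟩ := hh
  refine ⟨max c d, ?_⟩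
  rw [mul_add]
  exact (II.up hA (le_max_left c d) hc).add (II.up hA (le_max_right c d) hd)

theorem II.pow {A g : L} (hg : II B A g) (n : ℕ) : II B A (g ^ n) := by
  induction n with
  | zero => rw [pow_zero]; exact II.of_integral isIntegral_one
  | succ n ih => rw [pow_succ]; exact ih.mul hg

theorem II.prod {α : Type*} {A : L} (s : Finset α) {g : α → L} (h : ∀ a ∈ s, II B A (g a)) :
    II B A (∏ a ∈ s, g a) := by
  classical
  induction s using Finset.induction_on with
  | empty => rw [Finset.prod_empty]; exact II.of_integral isIntegral_one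
  | insert a s ha ih =>
    rw [Finset.prod_insert ha]
    exact (h a (Finset.mem_insert_self _ _)).mul (ih fun b hb => h b (Finset.mem_insert_of_mem hb))

theorem II.root {q : ℕ} (hq : 2 ≤ q) {A y w : L} (hA : IsIntegral B A) (hw : II B A w)
    (h : y ^ q + y = w) : II B A y := by
  obtain ⟨e, he⟩ := hw
  refine ⟨e, integral_root hq (a := A ^ (e * (q - 1))) (w := A ^ (e * q) * w) (hA.pow _)
    (II.up hA (Nat.le_mul_of_pos_right e (by omega)) he) ?_⟩
  rw [← h]
  have h1 : A ^ (e * q) = A ^ (e * (q - 1)) * A ^ e := by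
    rw [← pow_add]; congr 1
    obtain ⟨n, rfl⟩ : ∃ n, q = n + 1 := ⟨q - 1, by omega⟩
    simp; ring
  have h2 : (A ^ e * y) ^ q = A ^ (e * q) * y ^ q := by rw [mul_pow, ← pow_mul]
  rw [h2, mul_add]
  congr 1
  rw [h1]; ring

end integral

section chain

variable {k L : Type*} [Field k] [Field L] [Algebra k L] {q m : ℕ} {x : ℕ → L}

theorem integral_const (c : k) :
    IsIntegral (Subring.closure (Set.range (algebraMap k L) ∪ {x 0})) (algebraMap k L c) :=
  isIntegral_algebraMap (R := Subring.closure (Set.range (algebraMap k L) ∪ {x 0}))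
    (x := ⟨algebraMap k _ c, Subring.subset_closure (Or.inl ⟨c, rfl⟩)⟩)

theorem integral_x0 :
    IsIntegral (Subring.closure (Set.range (algebraMap k L) ∪ {x 0})) (x 0) :=
  isIntegral_algebraMap (R := Subring.closure (Set.range (algebraMap k L) ∪ {x 0}))
    (x := ⟨x 0, Subring.subset_closure (Or.inr rfl)⟩)

theorem integral_AA :
    IsIntegral (Subring.closure (Set.range (algebraMap k L) ∪ {x 0})) (AA q (x 0)) :=
  (integral_x0.pow q).add integral_x0

/-- up to powers of `A (x 0)` the functions `x i` are integral -/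
theorem II_x (hq : 2 ≤ q) (hr : Rel q m x) (h0 : AA q (x 0) ≠ 0) {i : ℕ} (hi : i < m) :
    II (Subring.closure (Set.range (algebraMap k L) ∪ {x 0})) (AA q (x 0)) (x i) ∧
      ∃ b, AA q (x i) * b = 1 ∧
        II (Subring.closure (Set.range (algebraMap k L) ∪ {x 0})) (AA q (x 0)) b := by
  induction i with
  | zero =>
    refine ⟨II.of_integral integral_x0, (AA q (x 0))⁻¹, mul_inv_cancel₀ h0, 1, ?_⟩
    rw [pow_one, mul_inv_cancel₀ h0]
    exact isIntegral_one
  | succ i ih =>
    obtain ⟨h1, b, hb, h2⟩ := ih (by omega)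
    have hA := integral_AA (k := k) (q := q) (x := x)
    refine ⟨II.root hq hA ((h1.pow (q + 1)).mul h2) (AA_succ hq hr hi hb),
      (x i ^ (q - 1) + 1) ^ (q + 1) * b ^ q, ?_, ?_⟩
    · have h3 := hr i hi
      have h4 : AA q (x i) = x i * (x i ^ (q - 1) + 1) := by
        rw [AA, mul_add, mul_one, ← pow_succ']
        congr 2
        omega
      calc AA q (x (i + 1)) * ((x i ^ (q - 1) + 1) ^ (q + 1) * b ^ q)
          = ((x (i + 1) ^ q + x (i + 1)) * (x i ^ (q - 1) + 1)) * (x i ^ (q - 1) + 1) ^ q *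
              b ^ q := by rw [AA]; ring
        _ = (x i * (x i ^ (q - 1) + 1) * b) ^ q := by rw [h3, mul_pow, mul_pow]
        _ = 1 := by rw [← h4, hb, one_pow]
    · exact (((h1.pow (q - 1)).add hA (II.of_integral isIntegral_one)).pow (q + 1)).mul (h2.pow q)

end chain

/-- **[AG-sep]** for every point there is a function which is one there and zero at the others. -/
theorem sep_point {k L S : Type*} [Field k] [Field L] [Algebra k L] [Fintype S] [DecidableEq S]
    {q m : ℕ} {x : ℕ → L} {pt : S → ℕ → k} (hq : 2 ≤ q) (hm : 1 ≤ m) (hx : Rel q m x)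
    (h0 : AA q (x 0) ≠ 0) (hp0 : ∀ P, AA q (pt P 0) ≠ 0)
    (hinj : ∀ P P', (∀ i < m, pt P i = pt P' i) → P = P') (P : S) :
    ∃ f ∈ RR k (fun i => ((x i, fun P => pt P i) : L × (S → k)))
        (((AA q (x 0))⁻¹, fun P => (AA q (pt P 0))⁻¹) : L × (S → k)) (m - 1),
      IsIntegral (Subring.closure (Set.range (algebraMap k L) ∪ {x 0})) f.1 ∧
        f.2 = Pi.single P 1 := by
  have hsep : ∀ P', P' ≠ P → ∃ i, i < m ∧ pt P' i ≠ pt P i := by
    intro P' hne
    by_contra hcon
    push Not at hcon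
    exact hne (hinj _ _ fun i hi => hcon i hi)
  choose! ι hι1 hι2 using hsep
  set ξ : ℕ → L × (S → k) := fun i => (x i, fun P => pt P i) with hξ
  set a : L × (S → k) := ((AA q (x 0))⁻¹, fun P => (AA q (pt P 0))⁻¹) with ha
  set G : S → L × (S → k) := fun P' => (ξ (ι P') - algebraMap k _ (pt P' (ι P'))) *
    algebraMap k _ ((pt P (ι P') - pt P' (ι P'))⁻¹) with hG
  set g := ∏ P' ∈ Finset.univ.erase P, G P' with hg
  have hGmem : ∀ P' ∈ Finset.univ.erase P, G P' ∈ RR k ξ a (m - 1) := by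
    intro P' hP'
    have h1 := hι1 P' (Finset.ne_of_mem_erase hP')
    exact mul_mem (sub_mem (RR_mono (by omega) (xi_mem_RR _)) (Subalgebra.algebraMap_mem _ _))
      (Subalgebra.algebraMap_mem _ _)
  have hg2 : ∀ R, g.2 R = if R = P then 1 else 0 := by
    intro R
    have h1 : g.2 R = ∏ P' ∈ Finset.univ.erase P, (G P').2 R := by
      rw [hg, Prod.snd_prod, Finset.prod_apply]
    have h2 : ∀ P', (G P').2 R = (pt R (ι P') - pt P' (ι P')) *
        (pt P (ι P') - pt P' (ι P'))⁻¹ := fun P' => rfl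
    rw [h1]
    simp only [h2]
    by_cases hR : R = P
    · rw [if_pos hR, hR]
      refine Finset.prod_eq_one fun P' hP' => ?_
      have h3 := hι2 P' (Finset.ne_of_mem_erase hP')
      exact mul_inv_cancel₀ (sub_ne_zero.2 (Ne.symm h3))
    · rw [if_neg hR]
      refine Finset.prod_eq_zero (Finset.mem_erase.2 ⟨hR, Finset.mem_univ _⟩) ?_
      rw [sub_self, zero_mul]
  have hg1 : II (Subring.closure (Set.range (algebraMap k L) ∪ {x 0})) (AA q (x 0)) g.1 := by
    have h1 : g.1 = ∏ P' ∈ Finset.univ.erase P, (G P').1 := by rw [hg, Prod.fst_prod]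
    rw [h1]
    refine II.prod _ fun P' hP' => ?_
    have h2 : (G P').1 = (x (ι P') + algebraMap k L (- pt P' (ι P'))) *
        algebraMap k L ((pt P (ι P') - pt P' (ι P'))⁻¹) := by
      rw [map_neg, ← sub_eq_add_neg]; rfl
    rw [h2]
    exact (((II_x hq hx h0 (hι1 P' (Finset.ne_of_mem_erase hP'))).1).add integral_AA
      (II.of_integral (integral_const _))).mul (II.of_integral (integral_const _))
  obtain ⟨c, hc⟩ := hg1
  refine ⟨(AA q (ξ 0) * algebraMap k _ ((AA q (pt P 0))⁻¹)) ^ c * g, ?_, ?_, ?_⟩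
  · have hx0 : ξ 0 ∈ RR k ξ a (m - 1) := RR_mono (Nat.zero_le _) (xi_mem_RR 0)
    exact mul_mem (pow_mem (mul_mem (add_mem (pow_mem hx0 _) hx0)
      (Subalgebra.algebraMap_mem _ _)) _) (Subalgebra.prod_mem _ hGmem)
  · have h1 : ((AA q (ξ 0) * algebraMap k _ ((AA q (pt P 0))⁻¹)) ^ c * g).1 =
        algebraMap k L ((AA q (pt P 0))⁻¹) ^ c * (AA q (x 0) ^ c * g.1) := by
      have : ((AA q (ξ 0) * algebraMap k _ ((AA q (pt P 0))⁻¹)) ^ c * g).1 =
        (AA q (x 0) * algebraMap k L ((AA q (pt P 0))⁻¹)) ^ c * g.1 := rfl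
      rw [this, mul_pow]; ring
    rw [h1]
    exact ((integral_const _).pow c).mul hc
  · funext R
    have h1 : ((AA q (ξ 0) * algebraMap k _ ((AA q (pt P 0))⁻¹)) ^ c * g).2 R =
        (AA q (pt R 0) * (AA q (pt P 0))⁻¹) ^ c * g.2 R := rfl
    rw [h1, hg2]
    by_cases hR : R = P
    · rw [hR, if_pos rfl, mul_inv_cancel₀ (hp0 P), one_pow, one_mul, Pi.single_eq_same]
    · rw [if_neg hR, mul_zero, Pi.single_eq_of_ne hR]

end Vale.Agent.P318.AG
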