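import Mathlib

/-! Codes with good squares, part 2: valuations on the tower. -/

set_option linter.unusedSectionVars false
set_option linter.unusedVariables false

namespace Vale.Agent.P318.AG

variable {L : Type*} [Field L] [CharP L 2]
variable {Γ : Type*} [LinearOrderedCommGroupWithZero Γ]

/-- Additivity of the `q`-power map. -/
def AddPow (L : Type*) [Field L] (q : ℕ) : Prop := ∀ x y : L, (x + y) ^ q = x ^ q + y ^ q

theorem addPow_of (a : ℕ) : AddPow L (2 ^ a) := fun x y => add_pow_char_pow x y 2 a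

variable {q : ℕ}

theorem pow_q (hq : 2 ≤ q) (z : L) : z ^ q = z * z ^ (q - 1) := by
  rw [← pow_succ']; congr 1; omega

theorem AS_eq (hq : 2 ≤ q) (z : L) : z ^ q + z = z * (z ^ (q - 1) + 1) := by
  rw [pow_q hq]; ring

section basic

variable (w : Valuation L Γ)

theorem w_pow_add_one_of_lt (hq : 2 ≤ q) {z : L} (hz : w z < 1) : w (z ^ (q - 1) + 1) = 1 := by
  rw [add_comm]
  apply Valuation.map_one_add_of_lt
  rw [map_pow]
  exact pow_lt_one₀ zero_le hz (by omega)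

theorem w_AS_of_lt (hq : 2 ≤ q) {z : L} (hz : w z < 1) : w (z ^ q + z) = w z := by
  rw [AS_eq hq, map_mul, w_pow_add_one_of_lt w hq hz, mul_one]

theorem w_AS_le_of_lt (hq : 2 ≤ q) {z : L} (hz : w z < 1) : w (z ^ q + z) ≤ w z :=
  (w_AS_of_lt w hq hz).le

theorem w_AS_of_gt (hq : 2 ≤ q) {z : L} (hz : 1 < w z) : w (z ^ q + z) = w z ^ q := by
  rw [Valuation.map_add_eq_of_lt_left, map_pow]
  rw [map_pow]
  calc w z = w z ^ 1 := (pow_one _).symm
    _ < w z ^ q := pow_lt_pow_right₀ hz (by omega)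

theorem w_pow_add_one_of_gt (hq : 2 ≤ q) {z : L} (hz : 1 < w z) :
    w (z ^ (q - 1) + 1) = w z ^ (q - 1) := by
  rw [Valuation.map_add_eq_of_lt_left, map_pow]
  rw [map_pow, map_one]
  exact one_lt_pow₀ hz (by omega)

theorem w_le_one_of_AS (hq : 2 ≤ q) {z : L} (hz : w (z ^ q + z) ≤ 1) : w z ≤ 1 := by
  by_contra h
  push Not at h
  rw [w_AS_of_gt w hq h] at hz
  exact absurd hz (not_le.mpr (one_lt_pow₀ h (by omega)))

theorem w_omega {ω : L} (hq : 2 ≤ q) (h1 : ω ^ q = ω) (h0 : ω ≠ 0) : w ω = 1 := by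
  have h2 : ω ^ (q - 1) = 1 := by
    have : ω * ω ^ (q - 1) = ω * 1 := by rw [← pow_q hq, h1, mul_one]
    exact mul_left_cancel₀ h0 this
  have h3 : w ω ^ (q - 1) = 1 := by rw [← map_pow, h2, map_one]
  exact (pow_eq_one_iff_of_nonneg zero_le (by omega)).mp h3

theorem AS_omega {ω : L} (h1 : ω ^ q = ω) : ω ^ q + ω = 0 := by
  rw [h1]; exact CharTwo.add_self_eq_zero ω

theorem AS_add (ha : AddPow L q) (y z : L) : (y + z) ^ q + (y + z) = (y ^ q + y) + (z ^ q + z) := by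
  rw [ha]; ring

/-- `b` telescoping. -/
theorem telescope (hq : 2 ≤ q) (b : ℕ → Γ) (R : ℕ) (hb : ∀ r < R, b (r + 1) ^ q = b r)
    (hb1 : ∀ r ≤ R, 1 ≤ b r) (e : ℕ → ℕ) (he : ∀ r, e r < q) :
    ∏ r ∈ Finset.range R, b (r + 1) ^ e (r + 1) ≤ b 0 := by
  have key : ∀ R' ≤ R, (∏ r ∈ Finset.range R', b (r + 1) ^ e (r + 1)) * b R' ≤ b 0 := by
    intro R' hR'
    induction R' with
    | zero => simp
    | succ n ih =>
      rw [Finset.prod_range_succ, mul_assoc, ← pow_succ]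
      refine le_trans ?_ (ih (by omega))
      apply mul_le_mul' le_rfl
      rw [← hb n (by omega)]
      exact pow_le_pow_right₀ (hb1 _ hR') (by have := he (n + 1); omega)
  refine le_trans ?_ (key R le_rfl)
  calc ∏ r ∈ Finset.range R, b (r + 1) ^ e (r + 1)
      = (∏ r ∈ Finset.range R, b (r + 1) ^ e (r + 1)) * 1 := (mul_one _).symm
    _ ≤ _ := mul_le_mul' le_rfl (hb1 R le_rfl)

end basic

/-- The chain relation. -/
def Rel (q m : ℕ) {R : Type*} [CommRing R] (x : ℕ → R) : Prop :=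
  ∀ i, i + 1 < m → (x (i + 1) ^ q + x (i + 1)) * (x i ^ (q - 1) + 1) = x i ^ q

/-- Nondegeneracy. -/
def Ndg (q m : ℕ) (x : ℕ → L) : Prop := ∀ i < m, x i ≠ 0 ∧ x i ^ (q - 1) + 1 ≠ 0

section chain

variable {m : ℕ} {x : ℕ → L} (w : Valuation L Γ)

theorem rel_inv (hq : 2 ≤ q) (hr : Rel q m x) (hn : Ndg q m x) {i : ℕ} (hi : i + 1 < m) :
    (x (i + 1) ^ q + x (i + 1)) * ((x i)⁻¹ ^ q + (x i)⁻¹) = 1 := by
  have h := hr i hi
  obtain ⟨h1, h2⟩ := hn i (by omega)
  have h3 : (x i)⁻¹ ^ q + (x i)⁻¹ = (x i ^ (q - 1) + 1) * (x i ^ q)⁻¹ := by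
    have h4 : x i ^ (q - 1) ≠ 0 := pow_ne_zero _ h1
    rw [inv_pow, pow_q hq]
    field_simp
    ring
  rw [h3, ← mul_assoc, h, mul_inv_cancel₀ (pow_ne_zero _ h1)]

/-- value of the next coordinate when the current one is small -/
theorem w_next_of_lt (hq : 2 ≤ q) (hr : Rel q m x) {i : ℕ} (hi : i + 1 < m) (h : w (x i) < 1) :
    w (x (i + 1) ^ q + x (i + 1)) = w (x i) ^ q := by
  have h1 := congrArg w (hr i hi)
  rw [map_mul, w_pow_add_one_of_lt w hq h, mul_one, map_pow] at h1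
  exact h1

theorem w_next_of_gt (hq : 2 ≤ q) (hr : Rel q m x) {i : ℕ} (hi : i + 1 < m) (h : 1 < w (x i)) :
    1 < w (x (i + 1)) ∧ w (x (i + 1)) ^ q = w (x i) := by
  have h1 := congrArg w (hr i hi)
  rw [map_mul, w_pow_add_one_of_gt w hq h, map_pow] at h1
  have h0 : w (x i) ≠ 0 := (lt_trans zero_lt_one h).ne'
  have h2 : w (x (i + 1) ^ q + x (i + 1)) = w (x i) := by
    have h3 : w (x i) ^ q = w (x i) * w (x i) ^ (q - 1) := by
      rw [← pow_succ']; congr 1; omega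
    rw [h3] at h1
    exact mul_right_cancel₀ (pow_ne_zero _ h0) h1
  have h4 : 1 < w (x (i + 1)) := by
    by_contra h5
    push Not at h5
    have h6 : w (x (i + 1) ^ q + x (i + 1)) ≤ 1 := by
      apply Valuation.map_add_le
      · rw [map_pow]; exact pow_le_one₀ zero_le h5
      · exact h5
    rw [h2] at h6
    exact absurd h6 (not_le.mpr h)
  exact ⟨h4, by rw [← w_AS_of_gt w hq h4, h2]⟩

/-- A path: the first `p` coordinates are small, the next one is close to `ω`. -/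
structure Path (q m : ℕ) (x : ℕ → L) (w : Valuation L Γ) (p : ℕ) (ω : L) : Prop where
  one_le : 1 ≤ p
  lt : p < m
  small : ∀ i < p, w (x i) < 1
  om : ω ^ q = ω
  ne : ω ≠ 0
  close : w (x p + ω) < 1

variable {p : ℕ} {ω : L}

theorem w_lt_step (hq : 2 ≤ q) (hr : Rel q m x) {i : ℕ} (hi : i + 1 < m) (h : w (x i) < 1)
    (h' : w (x (i + 1)) < 1) : w (x (i + 1)) = w (x i) ^ q := by
  rw [← w_next_of_lt w hq hr hi h, w_AS_of_lt w hq h']

theorem Path.w_p (P : Path q m x w p ω) (hq : 2 ≤ q) : w (x p) = 1 := by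
  have h1 : w ω = 1 := w_omega w hq P.om P.ne
  have h2 : x p = (x p + ω) + ω := by
    rw [add_assoc, CharTwo.add_self_eq_zero, add_zero]
  rw [h2, Valuation.map_add_eq_of_lt_right, h1]
  rw [h1]; exact P.close

theorem Path.w_close (P : Path q m x w p ω) (hq : 2 ≤ q) (ha : AddPow L q) (hr : Rel q m x) :
    w (x p + ω) = w (x (p - 1)) ^ q := by
  have hp := P.one_le
  have h1 := w_next_of_lt w hq hr (i := p - 1) (by have := P.lt; omega) (P.small _ (by omega))
  rw [show p - 1 + 1 = p by omega] at h1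
  rw [← h1, ← w_AS_of_lt w hq P.close, AS_add ha, AS_omega P.om, add_zero]

/-- The key unramifiedness: `x (p+j) + ω² / x (p-j)` is integral. -/
theorem Path.w_z (P : Path q m x w p ω) (hq : 2 ≤ q) (ha : AddPow L q) (hr : Rel q m x)
    (hn : Ndg q m x) :
    ∀ j, 1 ≤ j → j ≤ p → p + j < m → w (x (p + j) + ω ^ 2 * (x (p - j))⁻¹) ≤ 1 := by
  have hω : w ω = 1 := w_omega w hq P.om P.ne
  have hASω : ∀ y : L, (ω ^ 2 * y) ^ q + ω ^ 2 * y = ω ^ 2 * (y ^ q + y) := by
    intro y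
    have : (ω ^ 2) ^ q = ω ^ 2 := by rw [← pow_mul, mul_comm, pow_mul, P.om]
    rw [mul_pow, this]; ring
  intro j hj1
  induction j, hj1 using Nat.le_induction with
  | base =>
    intro hjp hjm
    apply w_le_one_of_AS w hq
    have hp := P.one_le
    rw [AS_add ha, hASω]
    have e1 := hr p (by omega)
    have e0 := hr (p - 1) (by omega)
    rw [show p - 1 + 1 = p by omega] at e0
    obtain ⟨n1, n2⟩ := hn p (by omega)
    obtain ⟨n3, n4⟩ := hn (p - 1) (by omega)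
    -- A(x (p+1)) = x p ^ (q+1) * A(1/x (p-1))
    have e2 : x (p + 1) ^ q + x (p + 1) =
        x p ^ (q + 1) * ((x (p - 1))⁻¹ ^ q + (x (p - 1))⁻¹) := by
      have h5 := rel_inv hq hr hn (i := p - 1) (by omega)
      rw [show p - 1 + 1 = p by omega, AS_eq hq (x p)] at h5
      have h6 : (x (p + 1) ^ q + x (p + 1)) * (x p ^ (q - 1) + 1) =
          (x p ^ (q + 1) * ((x (p - 1))⁻¹ ^ q + (x (p - 1))⁻¹)) * (x p ^ (q - 1) + 1) := by
        rw [e1]
        calc x p ^ q = x p ^ q * (x p * (x p ^ (q - 1) + 1) *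
              ((x (p - 1))⁻¹ ^ q + (x (p - 1))⁻¹)) := by rw [h5, mul_one]
          _ = _ := by ring
      exact mul_right_cancel₀ n2 h6
    rw [e2, ← add_mul, map_mul]
    have e3 : w ((x (p - 1))⁻¹ ^ q + (x (p - 1))⁻¹) = (w (x (p - 1)) ^ q)⁻¹ := by
      have h7 : 1 < w (x (p - 1))⁻¹ := by
        rw [map_inv₀]
        exact (one_lt_inv₀ (zero_lt_iff.mpr (by simpa using n3))).mpr (P.small _ (by omega))
      rw [w_AS_of_gt w hq h7, map_inv₀, inv_pow]
    rw [e3]
    have e4 : w (x p ^ (q + 1) + ω ^ 2) ≤ w (x (p - 1)) ^ q := by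
      rw [← P.w_close w hq ha hr]
      set δ := x p + ω with hδ
      have hxp : x p = ω + δ := by
        rw [hδ, add_comm, add_assoc, CharTwo.add_self_eq_zero, add_zero]
      have hδ1 : w δ < 1 := P.close
      have h8 : x p ^ (q + 1) + ω ^ 2 = δ * (ω + ω * δ ^ (q - 1) + δ ^ q) := by
        rw [pow_succ, hxp, ha, P.om, pow_q hq δ]
        have : (2 : L) = 0 := CharTwo.two_eq_zero
        linear_combination (ω ^ 2) * this
      rw [h8, map_mul]
      calc w δ * w (ω + ω * δ ^ (q - 1) + δ ^ q) ≤ w δ * 1 := by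
            apply mul_le_mul' le_rfl
            apply Valuation.map_add_le
            · apply Valuation.map_add_le
              · exact hω.le
              · rw [map_mul, hω, one_mul, map_pow]
                exact pow_le_one₀ zero_le hδ1.le
            · rw [map_pow]; exact pow_le_one₀ zero_le hδ1.le
        _ = w δ := mul_one _
    have h9 : w (x (p - 1)) ^ q ≠ 0 := pow_ne_zero _ (by simpa using n3)
    calc w (x p ^ (q + 1) + ω ^ 2) * (w (x (p - 1)) ^ q)⁻¹
        ≤ w (x (p - 1)) ^ q * (w (x (p - 1)) ^ q)⁻¹ := mul_le_mul' e4 le_rfl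
      _ = 1 := mul_inv_cancel₀ h9
  | succ j hj ih =>
    intro hjp hjm
    have hz := ih (by omega) (by omega)
    apply w_le_one_of_AS w hq
    obtain ⟨nX, _⟩ := hn (p + j) (by omega)
    obtain ⟨ny, _⟩ := hn (p - j) (by omega)
    have wy : w (x (p - j)) < 1 := P.small _ (by omega)
    have wy0 : w (x (p - j)) ≠ 0 := by simpa using ny
    set X := x (p + j) with hX
    set y := x (p - j) with hy
    have wX : w X = (w y)⁻¹ := by
      have h1 : X = (X + ω ^ 2 * y⁻¹) + ω ^ 2 * y⁻¹ := by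
        rw [add_assoc, CharTwo.add_self_eq_zero, add_zero]
      have h2 : w (ω ^ 2 * y⁻¹) = (w y)⁻¹ := by
        rw [map_mul, map_pow, hω, one_pow, one_mul, map_inv₀]
      rw [h1, Valuation.map_add_eq_of_lt_right, h2]
      rw [h2]
      refine lt_of_le_of_lt hz ?_
      exact (one_lt_inv₀ (zero_lt_iff.mpr wy0)).mpr wy
    -- relations
    have rX := rel_inv hq hr hn (i := p + j) (by omega)
    have ry := rel_inv hq hr hn (i := p - (j + 1)) (by omega)
    rw [show p - (j + 1) + 1 = p - j by omega] at ry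
    rw [← hX] at rX
    rw [← hy] at ry
    rw [show p + (j + 1) = p + j + 1 by omega, AS_add ha, hASω]
    set δ := X⁻¹ + (ω ^ 2)⁻¹ * y with hδ
    have hδ2 : δ = (ω ^ 2)⁻¹ * X⁻¹ * y * (X + ω ^ 2 * y⁻¹) := by
      rw [hδ]
      have := P.ne
      field_simp
      ring
    have wδ : w δ ≤ w y ^ 2 := by
      rw [hδ2, map_mul, map_mul, map_mul, map_inv₀, map_inv₀, map_pow, hω, wX]
      simp only [one_pow, inv_one, one_mul, inv_inv]
      calc w y * w y * w (X + ω ^ 2 * y⁻¹) ≤ w y * w y * 1 := mul_le_mul' le_rfl hz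
        _ = w y ^ 2 := by rw [mul_one, pow_two]
    have wy2 : w y ^ 2 < 1 := pow_lt_one₀ zero_le wy (by norm_num)
    have wAδ : w (δ ^ q + δ) ≤ w y ^ 2 :=
      le_trans (w_AS_le_of_lt w hq (lt_of_le_of_lt wδ wy2)) wδ
    have hinv : (X⁻¹ ^ q + X⁻¹) = (ω ^ 2)⁻¹ * (y ^ q + y) + (δ ^ q + δ) := by
      have h1 : X⁻¹ = (ω ^ 2)⁻¹ * y + δ := by
        rw [hδ, add_comm X⁻¹, ← add_assoc, CharTwo.add_self_eq_zero, zero_add]
      have h2 : ((ω ^ 2)⁻¹ * y) ^ q + (ω ^ 2)⁻¹ * y = (ω ^ 2)⁻¹ * (y ^ q + y) := by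
        have : ((ω ^ 2)⁻¹) ^ q = (ω ^ 2)⁻¹ := by
          rw [inv_pow, ← pow_mul, mul_comm, pow_mul, P.om]
        rw [mul_pow, this]; ring
      conv_lhs => rw [h1]
      rw [AS_add ha, h2]
    have wAX : w (X⁻¹ ^ q + X⁻¹) = w y := by
      have h3 : w X⁻¹ < 1 := by rw [map_inv₀, wX, inv_inv]; exact wy
      rw [w_AS_of_lt w hq h3, map_inv₀, wX, inv_inv]
    have wAy : w (y ^ q + y) = w y := w_AS_of_lt w hq wy
    have nAX : (X⁻¹ ^ q + X⁻¹) ≠ 0 := by
      intro h; rw [h, map_zero] at wAX; exact wy0 wAX.symm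
    have nAy : (y ^ q + y) ≠ 0 := by
      intro h; rw [h, map_zero] at wAy; exact wy0 wAy.symm
    have h5 : (x (p + j + 1) ^ q + x (p + j + 1)) +
        ω ^ 2 * ((x (p - (j + 1)))⁻¹ ^ q + (x (p - (j + 1)))⁻¹) =
        ω ^ 2 * (δ ^ q + δ) * (X⁻¹ ^ q + X⁻¹)⁻¹ * (y ^ q + y)⁻¹ := by
      rw [eq_comm, mul_inv_eq_iff_eq_mul₀ nAy, mul_inv_eq_iff_eq_mul₀ nAX]
      have h6 : δ ^ q + δ = (X⁻¹ ^ q + X⁻¹) + (ω ^ 2)⁻¹ * (y ^ q + y) := by
        rw [hinv, add_comm _ (δ ^ q + δ), add_assoc, CharTwo.add_self_eq_zero, add_zero]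
      rw [h6]
      have hne := P.ne
      have h7 : ω ^ 2 * ((X⁻¹ ^ q + X⁻¹) + (ω ^ 2)⁻¹ * (y ^ q + y)) =
          ω ^ 2 * (X⁻¹ ^ q + X⁻¹) + (y ^ q + y) := by
        field_simp
      rw [h7]
      linear_combination (-(y ^ q + y)) * rX - (ω ^ 2 * (X⁻¹ ^ q + X⁻¹)) * ry
    rw [h5, map_mul, map_mul, map_mul, map_pow, hω, one_pow, one_mul, map_inv₀, map_inv₀,
      wAX, wAy]
    calc w (δ ^ q + δ) * (w y)⁻¹ * (w y)⁻¹ ≤ w y ^ 2 * (w y)⁻¹ * (w y)⁻¹ :=
          mul_le_mul' (mul_le_mul' wAδ le_rfl) le_rfl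
      _ = 1 := by rw [pow_two]; field_simp

/-- `x (p+j)` has the inverse value of `x (p-j)`. -/
theorem Path.w_refl (P : Path q m x w p ω) (hq : 2 ≤ q) (ha : AddPow L q) (hr : Rel q m x)
    (hn : Ndg q m x) (j : ℕ) (hj1 : 1 ≤ j) (hjp : j ≤ p) (hjm : p + j < m) :
    w (x (p + j)) = (w (x (p - j)))⁻¹ := by
  have hω : w ω = 1 := w_omega w hq P.om P.ne
  have hz := P.w_z w hq ha hr hn j hj1 hjp hjm
  obtain ⟨ny, _⟩ := hn (p - j) (by omega)
  have wy : w (x (p - j)) < 1 := P.small _ (by omega)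
  have wy0 : w (x (p - j)) ≠ 0 := by simpa using ny
  have h1 : x (p + j) = (x (p + j) + ω ^ 2 * (x (p - j))⁻¹) + ω ^ 2 * (x (p - j))⁻¹ := by
    rw [add_assoc, CharTwo.add_self_eq_zero, add_zero]
  have h2 : w (ω ^ 2 * (x (p - j))⁻¹) = (w (x (p - j)))⁻¹ := by
    rw [map_mul, map_pow, hω, one_pow, one_mul, map_inv₀]
  rw [h1, Valuation.map_add_eq_of_lt_right, h2]
  rw [h2]
  refine lt_of_le_of_lt hz ?_
  exact (one_lt_inv₀ (zero_lt_iff.mpr wy0)).mpr wy

/-- After the path index everything is a pole. -/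
theorem Path.w_big (P : Path q m x w p ω) (hq : 2 ≤ q) (ha : AddPow L q) (hr : Rel q m x)
    (hn : Ndg q m x) (l : ℕ) (hl : p < l) (hlm : l < m) : 1 < w (x l) := by
  have hp := P.one_le
  induction l, hl using Nat.le_induction with
  | base =>
    rw [Nat.succ_eq_add_one] at hlm ⊢
    rw [P.w_refl w hq ha hr hn 1 le_rfl hp hlm]
    obtain ⟨ny, _⟩ := hn (p - 1) (by omega)
    have wy0 : w (x (p - 1)) ≠ 0 := by simpa using ny
    exact (one_lt_inv₀ (zero_lt_iff.mpr wy0)).mpr (P.small _ (by omega))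
  | succ l hl ih =>
    exact (w_next_of_gt w hq hr hlm (ih (by omega))).1

/-- Powers along the path after `p`. -/
theorem Path.w_pow (P : Path q m x w p ω) (hq : 2 ≤ q) (ha : AddPow L q) (hr : Rel q m x)
    (hn : Ndg q m x) (l r : ℕ) (hl : p < l) (hlm : l + r < m) :
    w (x (l + r)) ^ (q ^ r) = w (x l) := by
  induction r with
  | zero => simp
  | succ r ih =>
    have h1 := (w_next_of_gt w hq hr (i := l + r) (by omega)
      (P.w_big w hq ha hr hn _ (by omega) (by omega))).2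
    rw [pow_succ', pow_mul, ← add_assoc, h1]
    exact ih (by omega)

/-- Before `p` the values decrease. -/
theorem Path.w_anti (P : Path q m x w p ω) (hq : 2 ≤ q) (hr : Rel q m x) (i r : ℕ)
    (h : i + r < p) : w (x (i + r)) ≤ w (x i) := by
  induction r with
  | zero => simp
  | succ r ih =>
    have hlt := P.lt
    have h1 := w_lt_step w hq hr (i := i + r) (by omega) (P.small _ (by omega))
      (P.small _ (by omega))
    rw [← add_assoc, h1]
    refine le_trans ?_ (ih (by omega))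
    calc w (x (i + r)) ^ q ≤ w (x (i + r)) ^ 1 :=
          pow_le_pow_right_of_le_one' (P.small _ (by omega)).le (by omega)
      _ = _ := pow_one _

end chain

end Vale.Agent.P318.AG
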